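import Vale.Agent.P076.H629.StX2
import Vale.Agent.P076.X.Rep
import Vale.Agent.P076.X.Amp
import Vale.Agent.P076.X.Prune2
import Vale.Agent.P076.H7.Sum
import Vale.Agent.P076.H416.TelX
import Vale.Agent.P076.H457.KerX
import Vale.Agent.P076.H972.EnW
import Vale.Agent.P076.H263.MaxP
import Vale.Agent.P076.H40.Cnt
import Vale.Agent.P076.H40.Bern

/-! # P076: PROP X (block X complete) -/

set_option linter.all false

namespace Vale.Agent.P076.H629

open Vale.Agent.P076.X

theorem stSumP : StSumP := H7.stSumP_of H416.stTelA stAmp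

theorem stX2K_of2 (hCount : StCount2) (hBern : StBern) : StX2K :=
  stX2K_of stRep stPrune stSumP H457.stKer hCount hBern H972.stEnF H972.stEnW H263.stMaxP

theorem stX2_of2 (hCount : StCount2) (hBern : StBern) : StX2 :=
  stX2_of stRep stPrune stSumP H457.stKer hCount hBern H972.stEnF H972.stEnW H263.stMaxP

/-- PROP X for `Good` profiles with support in `[-K,K]`, unconditional -/
theorem stX2K : StX2K := stX2K_of2 H40.stCount2 H40.stBern

/-- PROP X, verbatim `X.StX2`, unconditional -/
theorem stX2 : StX2 := stX2_of2 H40.stCount2 H40.stBern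

end Vale.Agent.P076.H629
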