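import Vale.Agent.P076.H629.XStop

/-! # P076, X.STOP: `StX2` from the other statements of block X -/

set_option linter.all false

open MeasureTheory Set

namespace Vale.Agent.P076.H629

open Vale.Agent.P076.X

lemma good_of_bdd {g : ℝ → ℂ} (hg : Measurable g) (hb : ∃ M, ∀ ξ, ‖g ξ‖ ≤ M)
    (hs : ∀ ξ, g ξ ≠ 0 → |ξ| ≤ 1) : Good g := by
  obtain ⟨M, hM⟩ := hb
  have e : g = (Icc (-1:ℝ) 1).indicator g := by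
    funext ξ
    rw [Set.indicator_apply]
    split_ifs with h
    · rfl
    · by_contra h'
      apply h
      have := hs ξ h'
      rw [abs_le] at this
      exact this
  have key : ∀ p : ENNReal, MemLp g p := by
    intro p
    rw [e, memLp_indicator_iff_restrict measurableSet_Icc]
    exact MemLp.of_bound hg.aestronglyMeasurable M (Filter.Eventually.of_forall hM)
  exact ⟨memLp_one_iff_integrable.mp (key 1), key 2⟩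

/-- a bump which is `1` on `[-K,K]` -/
lemma bump_one (K : ℝ) (hK : 1 ≤ K) : ∃ ψ : ℝ → ℝ, Bump ψ ∧ ∀ ξ, |ξ| ≤ K → ψ ξ = 1 := by
  let f : ContDiffBump (0:ℝ) := ⟨K, K + 1, by linarith, by linarith⟩
  refine ⟨f, ⟨f.contDiff, f.hasCompactSupport⟩, ?_⟩
  intro ξ h
  apply f.one_of_mem_closedBall
  rw [mem_closedBall_zero_iff]
  exact h

/-- bound of `X_0` near a point where the energy is small -/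
lemma X0_bound {B K : ℝ} (hB : 1 ≤ B) {ψ : ℝ → ℝ} (h1 : ∀ ξ, |ξ| ≤ K → ψ ξ = 1) {CB CW : ℝ}
    (hCB : 0 < CB) (hCW : 0 < CW)
    (hBern : ∀ s : ℝ, 1 ≤ s → ∀ x₀ t₁ x t : ℝ, |x - x₀| ≤ 4 * s → |t - t₁| ≤ 4 * s →
      ∀ h : ℝ → ℂ, Good h → En B s x t (fun ξ => ψ ξ * h ξ) ≤ CB * En B s x₀ t₁ h)
    (hEnW : ∀ s : ℝ, 0 < s → ∀ g : ℝ → ℂ, Good g → ∀ x t : ℝ,
      Integrable (fun y => W s (x - y) * ‖sol g y t‖ ^ 2) ∧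
      En B s x t g ≤ CW * ∫ y, W s (x - y) * ‖sol g y t‖ ^ 2)
    {b C₀ C₁ : ℝ} {m N : ℕ} {g : ℝ → ℂ} (Pr : Proc B b C₀ C₁ m N g) (hg : Good g)
    (hs : ∀ ξ, g ξ ≠ 0 → |ξ| ≤ K) {Y : ℝ} {z : ℝ × ℝ}
    (hz : ∫ x, W ((2:ℝ) ^ m) (z.1 - x) * ‖sol g x z.2‖ ^ 2 ≤ Y) {x t : ℝ}
    (hx : |x - z.1| ≤ sc m 0) (ht : |t - z.2| ≤ sc m 0) (ht0 : 0 ≤ t) (ht1 : t < 4 ^ m) :
    XX Pr 0 x t ≤ CB * CW * Y := by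
  rw [XX_zero Pr ht0 ht1]
  have e : (fun ξ => (ψ ξ : ℂ) * g ξ) = g := by
    funext ξ
    by_cases h : g ξ = 0
    · rw [h, mul_zero]
    · rw [h1 ξ (hs ξ h)]; simp
  have hs0 := sc_pos m 0
  have h2 := hBern (sc m 0) (sc_ge_one (Nat.zero_le m)) z.1 z.2 x t (by linarith) (by linarith) g hg
  rw [e] at h2
  have h3 := (hEnW (sc m 0) hs0 g hg z.1 z.2).2
  rw [sc_zero] at h3
  have h4 : En B (2 ^ m) z.1 z.2 g ≤ CW * Y :=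
    h3.trans (mul_le_mul_of_nonneg_left hz hCW.le)
  rw [sc_zero] at h2 ⊢
  calc En B (2 ^ m) x t g ≤ CB * En B (2 ^ m) z.1 z.2 g := h2
    _ ≤ CB * (CW * Y) := mul_le_mul_of_nonneg_left h4 hCB.le
    _ = _ := by ring

/-- final computation -/
lemma final_alg {n α Y₁ Y₂ A₀ A₁ CC CM CS F M₁ M₂ C : ℝ} (hα : 0 < α) (hY₁ : 0 < Y₁)
    (hY₂ : 0 < Y₂) (hA₀ : 0 < A₀) (hA₁ : 0 < A₁) (hCC : 0 < CC) (hCM : 0 < CM) (hCS : 0 < CS)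
    (hF : 0 < F) (hM₁ : 0 ≤ M₁) (hM₂ : 0 ≤ M₂)
    (hC : 16 * (CC * 4 * (54 * 54)) * (A₁ * A₁) * (2 * CM * (CS * A₀ ^ 2) / A₁ ^ 2) ≤ C)
    (h : (α / 2) ^ 4 * n ≤ CC * 4 * (54 * (A₁ * Y₁) * (54 * (A₁ * Y₂))) *
      (2 * CM * (CS * (A₀ * Y₁ / α) ^ 2 * F * M₁) / (A₁ * Y₁) ^ 2 +
        2 * CM * (CS * (A₀ * Y₂ / α) ^ 2 * F * M₂) / (A₁ * Y₂) ^ 2)) :
    α ^ 2 * n ≤ C * (Y₁ * Y₂ / α ^ 4) * F * (M₁ + M₂) := by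
  have hα2 : 0 < α ^ 2 := by positivity
  have e5 : 2 * CM * (CS * (A₀ * Y₁ / α) ^ 2 * F * M₁) / (A₁ * Y₁) ^ 2 +
      2 * CM * (CS * (A₀ * Y₂ / α) ^ 2 * F * M₂) / (A₁ * Y₂) ^ 2 =
      (2 * CM * (CS * A₀ ^ 2) / A₁ ^ 2) * (F * (M₁ + M₂)) / α ^ 2 := by
    field_simp
  rw [e5] at h
  have e6 : α ^ 2 * n = 16 * ((α / 2) ^ 4 * n) / α ^ 2 := by
    field_simp; ring
  rw [e6, div_le_iff₀ hα2]
  have h7 := mul_le_mul_of_nonneg_left h (by norm_num : (0:ℝ) ≤ 16)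
  refine h7.trans ?_
  have e8 : 16 * (CC * 4 * (54 * (A₁ * Y₁) * (54 * (A₁ * Y₂))) *
      ((2 * CM * (CS * A₀ ^ 2) / A₁ ^ 2) * (F * (M₁ + M₂)) / α ^ 2)) =
      16 * (CC * 4 * (54 * 54)) * (A₁ * A₁) * (2 * CM * (CS * A₀ ^ 2) / A₁ ^ 2) *
        (Y₁ * Y₂ / α ^ 4) * F * (M₁ + M₂) * α ^ 2 := by
    field_simp
  rw [e8]
  apply mul_le_mul_of_nonneg_right _ hα2.le
  apply mul_le_mul_of_nonneg_right _ (by positivity)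
  apply mul_le_mul_of_nonneg_right _ hF.le
  apply mul_le_mul_of_nonneg_right hC (by positivity)

lemma small_alg {CC CB A₁ D Y a : ℝ} (h1 : 0 < 216 * CC * A₁) (h2 : 0 < 216 * CB * A₁) (hD : 0 < D)
    (hY : 0 < Y) (h : (1 + 216 * CC * A₁ + (216 * CB * A₁ + 1) + D) * Y ≤ a ^ 2) :
    CC * (54 * (A₁ * Y)) ≤ (a / 2) ^ 2 ∧ CB * (54 * (A₁ * Y)) < (a / 2) ^ 2 := by
  have h3 := mul_pos h1 hY
  have h4 := mul_pos h2 hY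
  have h5 := mul_pos hD hY
  have e : (1 + 216 * CC * A₁ + (216 * CB * A₁ + 1) + D) * Y =
    Y + 216 * CC * A₁ * Y + (216 * CB * A₁ * Y + Y) + D * Y := by ring
  rw [e] at h
  have e2 : (a / 2) ^ 2 = a ^ 2 / 4 := by ring
  rw [e2]
  constructor <;> linarith

/-- PROP X for `Good` profiles with support in `[-K,K]` -/
def StX2K : Prop := ∀ K : ℝ, 1 ≤ K → ∀ ψ₁ ψ₂ : ℝ → ℝ, Bump ψ₁ → Bump ψ₂ →
  ∀ δ : ℝ, 0 < δ → (∀ ξ ξ', ψ₁ ξ ≠ 0 → ψ₂ ξ' ≠ 0 → δ ≤ |ξ - ξ'|) →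
  ∃ C : ℝ, 1 ≤ C ∧ ∀ (m : ℕ) (g₁ g₂ : ℝ → ℂ), Good g₁ → Good g₂ →
  (∀ ξ, g₁ ξ ≠ 0 → |ξ| ≤ K) → (∀ ξ, g₂ ξ ≠ 0 → |ξ| ≤ K) →
  ∀ Y₁ Y₂ α : ℝ, 0 < Y₁ → 0 < Y₂ → 0 < α → C * Y₁ ≤ α ^ 2 → C * Y₂ ≤ α ^ 2 →
  ∀ E : Finset (ℝ × ℝ),
  (∀ z ∈ E, ∀ z' ∈ E, z ≠ z' → 1 ≤ |z.1 - z'.1| ∨ 1 ≤ |z.2 - z'.2|) →
  (∀ z ∈ E, 0 ≤ z.2 ∧ z.2 < (4:ℝ) ^ m ∧
    α ≤ ‖sol (fun ξ => ψ₁ ξ * g₁ ξ) z.1 z.2‖ ∧ α ≤ ‖sol (fun ξ => ψ₂ ξ * g₂ ξ) z.1 z.2‖ ∧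
    ∫ x, W ((2:ℝ) ^ m) (z.1 - x) * ‖sol g₁ x z.2‖ ^ 2 ≤ Y₁ ∧
    ∫ x, W ((2:ℝ) ^ m) (z.1 - x) * ‖sol g₂ x z.2‖ ^ 2 ≤ Y₂) →
  α ^ 2 * E.card ≤ C * (Y₁ * Y₂ / α ^ 4) * (4:ℝ) ^ m * (ms g₁ + ms g₂)

/-- **PROP X**, two-profile version, from the other statements of block X -/
theorem stX2K_of (hRep : StRep) (hPrune : StPrune) (hSum : StSumP) (hKer : StKer)
    (hCount : StCount2) (hBern : StBern) (hEnF : StEnF) (hEnW : StEnW) (hMax : StMaxP) :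
    StX2K := by
  intro K hKK ψ₁ ψ₂ hψ₁ hψ₂ δ hδ hsep
  obtain ⟨B, hB, hPr⟩ := hPrune
  obtain ⟨C₀, hC₀, hSm⟩ := hSum
  obtain ⟨C₁, hC₁, hPr⟩ := hPr C₀ hC₀
  obtain ⟨CS, hCS, hSm⟩ := hSm B C₁ hB hC₁
  obtain ⟨CM, hCM, hMx⟩ := hMax B hB
  obtain ⟨K₁, hK₁0, hK₁⟩ := hKer B hB ψ₁ hψ₁
  obtain ⟨K₂, hK₂0, hK₂⟩ := hKer B hB ψ₂ hψ₂
  obtain ⟨CC, hCC, hCt⟩ := hCount B hB ψ₁ ψ₂ hψ₁ hψ₂ δ hδ hsep
  obtain ⟨CB, hCB, hBn⟩ := hBern B hB ψ₁ hψ₁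
  obtain ⟨ψ₀, hψ₀, hψ₀1⟩ := bump_one K hKK
  obtain ⟨CB0, hCB0, hBn0⟩ := hBern B hB ψ₀ hψ₀
  obtain ⟨CW, hCW, hEW⟩ := hEnW B hB
  have hCCp : 0 < CC := by linarith
  -- constants
  set A₁ : ℝ := 4 * (CB0 * CW) with hA₁
  have hA₁p : 0 < A₁ := by positivity
  set CK : ℝ := K₁ + K₂ with hCK
  have hCKp : 0 < CK := by positivity
  set A₀ : ℝ := 216 * CK * A₁ with hA₀
  have hA₀p : 0 < A₀ := by positivity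
  set D : ℝ := 16 * (CC * 4 * (54 * 54)) * (A₁ * A₁) *
    (2 * CM * (CS * A₀ ^ 2) / A₁ ^ 2) with hD
  have hDp : 0 < D := by positivity
  refine ⟨1 + 216 * CC * A₁ + (216 * CB * A₁ + 1) + D, ?_, ?_⟩
  · have h1 : 0 < 216 * CC * A₁ := by positivity
    have h2 : 0 < 216 * CB * A₁ := by positivity
    linarith
  intro m g₁ g₂ G₁ G₂ hs₁ hs₂ Y₁ Y₂ α hY₁ hY₂ hα hCY₁ hCY₂ E hEsep hE
  have hq1 : 0 < 216 * CC * A₁ := by positivity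
  have hq2 : 0 < 216 * CB * A₁ := by positivity
  obtain ⟨hc1, hbt⟩ := small_alg hq1 hq2 hDp hY₁ hCY₁
  obtain ⟨hc2, -⟩ := small_alg hq1 hq2 hDp hY₂ hCY₂
  have hbp : ∀ Y : ℝ, 0 < Y → 0 < A₀ * Y / α := fun Y hY => by positivity
  obtain ⟨P1, hgi1, hgo1⟩ := proc_exists m m
    (fun s t₀ hs g hg => hPr s t₀ (A₀ * Y₁ / α) hs (hbp Y₁ hY₁) g hg) g₁ G₁
  obtain ⟨P2, hgi2, hgo2⟩ := proc_exists m m
    (fun s t₀ hs g hg => hPr s t₀ (A₀ * Y₂ / α) hs (hbp Y₂ hY₂) g hg) g₂ G₂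
  have hS1 := hSm _ m m g₁ (hbp Y₁ hY₁) P1
  have hS2 := hSm _ m m g₂ (hbp Y₂ hY₂) P2
  have hthr : ∀ Y : ℝ, 0 < Y → 2 * CK / (A₀ * Y / α) * (54 * (A₁ * Y)) ≤ α / 2 := by
    intro Y hY
    apply le_of_eq
    rw [hA₀]
    field_simp
    ring
  have hcore := core hRep hEnF hB hCM hMx hψ₁ hψ₂ hCKp
    (KerP_mono hB (by rw [hCK]; linarith) hK₁) (KerP_mono hB (by rw [hCK]; linarith) hK₂) hCC hCt
    hCB (fun s hs x₀ t₁ x t h1 h2 h hh => (hBn s hs x₀ t₁ x t h1 h2 h hh).1)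
    (hbp Y₁ hY₁) (hbp Y₂ hY₂) P1 P2 hgi1 hgo1 hgi2 hgo2
    (lam₁ := A₁ * Y₁) (lam₂ := A₁ * Y₂) (α := α) (by positivity) (by positivity) hα
    (hthr Y₁ hY₁) (hthr Y₂ hY₂) hc1 hc2 hbt E hEsep
    (fun z hz => ⟨(hE z hz).1, (hE z hz).2.1, (hE z hz).2.2.1, (hE z hz).2.2.2.1⟩)
    (by
      intro z hz x t hx ht ht0 ht1
      have h := X0_bound hB hψ₀1 hCB0 hCW
        (fun s hs x₀ t₁ x t h1 h2 h hh => (hBn0 s hs x₀ t₁ x t h1 h2 h hh).2) hEW P1 G₁ hs₁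
        (hE z hz).2.2.2.2.1 hx ht ht0 ht1
      rw [hA₁]; linarith)
    (by
      intro z hz x t hx ht ht0 ht1
      have h := X0_bound hB hψ₀1 hCB0 hCW
        (fun s hs x₀ t₁ x t h1 h2 h hh => (hBn0 s hs x₀ t₁ x t h1 h2 h hh).2) hEW P2 G₂ hs₂
        (hE z hz).2.2.2.2.2 hx ht ht0 ht1
      rw [hA₁]; linarith)
    hS1 hS2
  -- final computation
  have e4 : sc m 0 ^ 2 = 4 ^ m := by
    have := sc_sq m 0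
    simpa using this
  rw [e4] at hcore
  exact final_alg hα hY₁ hY₂ hA₀p hA₁p hCCp hCM hCS (by positivity) (ms_nonneg g₁) (ms_nonneg g₂)
    (by linarith) hcore

/-- **PROP X**, two-profile version, verbatim `X.StX2` -/
theorem stX2_of (hRep : StRep) (hPrune : StPrune) (hSum : StSumP) (hKer : StKer)
    (hCount : StCount2) (hBern : StBern) (hEnF : StEnF) (hEnW : StEnW) (hMax : StMaxP) : StX2 := by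
  intro ψ₁ ψ₂ hψ₁ hψ₂ δ hδ hsep
  obtain ⟨C, hC, h⟩ := stX2K_of hRep hPrune hSum hKer hCount hBern hEnF hEnW hMax 1 le_rfl
    ψ₁ ψ₂ hψ₁ hψ₂ δ hδ hsep
  refine ⟨C, hC, ?_⟩
  intro m g₁ g₂ hg₁ hg₂ hb₁ hb₂ hs₁ hs₂
  exact h m g₁ g₂ (good_of_bdd hg₁ hb₁ hs₁) (good_of_bdd hg₂ hb₂ hs₂) hs₁ hs₂

end Vale.Agent.P076.H629
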