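import Vale.Agent.P076.H629.XMax

/-! # P076, X.STOP: integration in time, good times, contribution of the removed parts -/

set_option linter.all false

open MeasureTheory Set

namespace Vale.Agent.P076.H629

open Vale.Agent.P076.X

/-- the level zero interval contained in `[0,4^m)` -/
lemma II_sub {m l : ℕ} (hl : l ≤ m) {t : ℝ} (h0 : 0 ≤ t) (h1 : t < 4 ^ m) :
    II m l ⌊t / sc m l⌋ ⊆ Ico 0 (4 ^ m) := by
  have hs := sc_pos m l
  intro t' ht'
  rw [mem_II] at ht'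
  rw [mem_Ico]
  constructor
  · have h2 : 0 ≤ ⌊t / sc m l⌋ := Int.floor_nonneg.mpr (by positivity)
    rw [← ht'] at h2
    have h3 := Int.floor_nonneg.mp h2
    by_contra hc
    push Not at hc
    have := div_neg_of_neg_of_pos hc hs
    linarith
  · have e : (4:ℝ) ^ m = ((2 ^ (m + l) : ℤ) : ℝ) * sc m l := by
      unfold sc
      push_cast
      have h : (4:ℝ) ^ m = (2 ^ m) ^ 2 := by rw [← pow_mul, mul_comm, pow_mul]; norm_num
      rw [h, pow_add]; field_simp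
    have h2 : ⌊t / sc m l⌋ < (2:ℤ) ^ (m + l) := by
      rw [Int.floor_lt, div_lt_iff₀ hs, ← e]
      exact h1
    rw [← ht', Int.floor_lt, div_lt_iff₀ hs, ← e] at h2
    exact h2

lemma fl_anti {m l : ℕ} {x x' : ℝ} (h : ⌊x / sc m (l + 1)⌋ = ⌊x' / sc m (l + 1)⌋) :
    ⌊x / sc m l⌋ = ⌊x' / sc m l⌋ := by
  have hs := sc_pos m (l + 1)
  have e : ∀ x : ℝ, x / sc m l = (x / sc m (l + 1)) / ((2 : ℕ) : ℝ) := by
    intro x
    rw [sc_succ m l]
    push_cast
    field_simp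
  rw [e x, e x', Int.floor_div_natCast, Int.floor_div_natCast, h]

lemma fl_anti' {m i l : ℕ} (hil : i ≤ l) {x x' : ℝ} (h : ⌊x / sc m l⌋ = ⌊x' / sc m l⌋) :
    ⌊x / sc m i⌋ = ⌊x' / sc m i⌋ := by
  induction hil with
  | refl => exact h
  | step _ ih => exact ih (fl_anti h)

section

variable {B b C₀ C₁ : ℝ} {m N : ℕ} {g : ℝ → ℂ} (Pr : Proc B b C₀ C₁ m N g)
  (hB : 1 ≤ B) (hRep : StRep) (hgi : ∀ l k, Good (Pr.gi l k)) (hgo : ∀ l k, Good (Pr.go l k))

include hB hRep hgi hgo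

lemma GG_time (l : ℕ) :
    ∫ t in Ico 0 (4 ^ m), GG Pr l t = ∑ k ∈ Finset.range (4 ^ l),
    (∫ t in (k * (sc m l) ^ 2)..((k + 1) * (sc m l) ^ 2),
      ∫ a, mu (sc m l) a * ‖uh (Pr.gi l k) (Pr.gi l k) a t‖ ^ 2) := by
  have hs := sc_pos m l
  have hs2 : 0 < sc m l ^ 2 := by positivity
  have hG := GG_int Pr hB hRep hgi hgo l
  have hle : ∀ k : ℕ, (k : ℝ) * sc m l ^ 2 ≤ (k + 1) * sc m l ^ 2 := by
    intro k; nlinarith
  have e1 : ∀ k ∈ Finset.range (4 ^ l), (∫ t in (k * (sc m l) ^ 2)..((k + 1) * (sc m l) ^ 2),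
      ∫ a, mu (sc m l) a * ‖uh (Pr.gi l k) (Pr.gi l k) a t‖ ^ 2) =
      ∫ t in ((fun k : ℕ => (k:ℝ) * sc m l ^ 2) k)..((fun k : ℕ => (k:ℝ) * sc m l ^ 2) (k + 1)),
        GG Pr l t := by
    intro k _
    simp only
    push_cast
    rw [intervalIntegral.integral_of_le (hle k), intervalIntegral.integral_of_le (hle k),
      integral_Ioc_eq_integral_Ioo, integral_Ioc_eq_integral_Ioo]
    apply setIntegral_congr_fun measurableSet_Ioo
    intro t ht
    have : kk m l t = k := kk_eq ht.1.le ht.2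
    simp only
    unfold GG
    rw [this]
  rw [Finset.sum_congr rfl e1, intervalIntegral.sum_integral_adjacent_intervals]
  · push_cast
    rw [zero_mul, mul_comm, sc_sq, intervalIntegral.integral_of_le (by positivity),
      integral_Ico_eq_integral_Ioo, integral_Ioc_eq_integral_Ioo]
  · intro k hk
    push_cast
    rw [intervalIntegrable_iff_integrableOn_Ico_of_le (hle k)]
    apply hG.mono_set
    intro t ht
    rw [mem_Ico] at ht ⊢
    refine ⟨le_trans (by positivity) ht.1, ht.2.trans_le ?_⟩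
    have h3 : ((k:ℝ) + 1) ≤ 4 ^ l := by exact_mod_cast hk
    calc ((k:ℝ) + 1) * sc m l ^ 2 ≤ 4 ^ l * sc m l ^ 2 :=
          mul_le_mul_of_nonneg_right h3 hs2.le
      _ = 4 ^ m := by rw [mul_comm, sc_sq]

/-- the average (times the area) of `X_l` over a dyadic square -/
noncomputable def avg (l : ℕ) (q : ℤ × ℤ) : ℝ :=
  ∫ t in II m l q.2, ∫ x in II m l q.1, XX Pr l x t

lemma max_int (hEnF : StEnF) {CM : ℝ} (hCM : 0 < CM) (hMax : MaxP B CM) (hN : 1 ≤ N) {lam : ℝ} (hlam : 0 < lam)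
    (SS : Finset (ℕ × ℤ × ℤ)) (h1 : ∀ p ∈ SS, 1 ≤ p.1 ∧ p.1 ≤ N)
    (h2 : ∀ p ∈ SS, II m p.1 p.2.2 ⊆ Ico 0 (4 ^ m))
    (hdisj : ∀ p ∈ SS, ∀ p' ∈ SS, p ≠ p' → ∀ x t, x ∈ II m p.1 p.2.1 → t ∈ II m p.1 p.2.2 →
      x ∈ II m p'.1 p'.2.1 → t ∈ II m p'.1 p'.2.2 → False)
    (hstop : ∀ p ∈ SS, lam * sc m p.1 ^ 2 ≤ avg Pr p.1 p.2)
    (hX0 : ∀ p ∈ SS, ∀ t ∈ II m p.1 p.2.2, ∀ x ∈ II m p.1 p.2.1, XX Pr 0 x t ≤ lam / 4)
    {V : ℝ} (hSum : ∑ l ∈ Finset.Icc 1 N, ∑ k ∈ Finset.range (4 ^ l),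
      (∫ t in (k * (sc m l) ^ 2)..((k + 1) * (sc m l) ^ 2),
        ∫ a, mu (sc m l) a * ‖uh (Pr.gi l k) (Pr.gi l k) a t‖ ^ 2) ≤ V) :
    lam ^ 2 * ∑ p ∈ SS, sc m p.1 ^ 2 ≤ 2 * CM * V := by
  classical
  have hDint : ∀ p ∈ SS, IntegrableOn (fun t => (∫ x in II m p.1 p.2.1, XX Pr p.1 x t) -
      ∫ x in II m p.1 p.2.1, XX Pr 0 x t) (Ico 0 (4 ^ m)) := by
    intro p hp
    exact (int_t Pr hB hRep hgi hgo (h1 p hp).2 p.1 p.2.1).sub
      (int_t Pr hB hRep hgi hgo (Nat.zero_le _) p.1 p.2.1)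
  have hpt : ∀ t ∈ Ico (0:ℝ) (4 ^ m),
      ∑ p ∈ SS, (II m p.1 p.2.2).indicator (fun t => (∫ x in II m p.1 p.2.1, XX Pr p.1 x t) -
        ∫ x in II m p.1 p.2.1, XX Pr 0 x t) t
      ≤ ∑ p ∈ SS, (II m p.1 p.2.2).indicator (fun _ => lam / 4 * sc m p.1) t +
        ∑ j ∈ Finset.range N, CM / lam * GG Pr (j + 1) t := by
    intro t ht
    have h := max_pt Pr hB hRep hgi hgo hEnF hMax hN hlam ht.1 ht.2
      (SS.filter (fun p => t ∈ II m p.1 p.2.2))
      (by intro p hp; exact h1 p (Finset.mem_filter.mp hp).1)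
      (by
        intro p hp p' hp' hne
        simp only [Finset.coe_filter, mem_setOf_eq] at hp hp'
        rw [Function.onFun, Set.disjoint_left]
        intro x hx hx'
        exact hdisj p hp.1 p' hp'.1 hne x t hx hp.2 hx' hp'.2)
    rw [Finset.sum_filter, Finset.sum_filter, Finset.mul_sum, Finset.mul_sum] at h
    refine le_of_eq_of_le ?_ (h.trans (le_of_eq ?_))
    · apply Finset.sum_congr rfl
      intro p _
      rw [Set.indicator_apply]
    · congr 1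
      apply Finset.sum_congr rfl
      intro p _
      rw [Set.indicator_apply]
      split_ifs <;> simp
  have hI1 : ∀ p ∈ SS, IntegrableOn ((II m p.1 p.2.2).indicator
      (fun t => (∫ x in II m p.1 p.2.1, XX Pr p.1 x t) -
        ∫ x in II m p.1 p.2.1, XX Pr 0 x t)) (Ico 0 (4 ^ m)) := by
    intro p hp
    exact (hDint p hp).indicator (meas_II _ _ _)
  have hI2 : ∀ p ∈ SS, IntegrableOn ((II m p.1 p.2.2).indicator
      (fun _ : ℝ => lam / 4 * sc m p.1)) (Ico 0 (4 ^ m)) := by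
    intro p _
    refine IntegrableOn.indicator ?_ (meas_II _ _ _)
    rw [integrableOn_const_iff]
    right
    rw [Real.volume_Ico]
    exact ENNReal.ofReal_lt_top
  have hI3 : ∀ j ∈ Finset.range N, IntegrableOn (fun t => CM / lam * GG Pr (j + 1) t)
      (Ico 0 (4 ^ m)) := by
    intro j _
    exact (GG_int Pr hB hRep hgi hgo (j + 1)).const_mul _
  have hmain := setIntegral_mono_on
    (f := fun t => ∑ p ∈ SS, (II m p.1 p.2.2).indicator
      (fun t => (∫ x in II m p.1 p.2.1, XX Pr p.1 x t) -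
        ∫ x in II m p.1 p.2.1, XX Pr 0 x t) t)
    (g := fun t => ∑ p ∈ SS, (II m p.1 p.2.2).indicator (fun _ => lam / 4 * sc m p.1) t +
        ∑ j ∈ Finset.range N, CM / lam * GG Pr (j + 1) t)
    (integrable_finset_sum _ hI1)
    ((integrable_finset_sum _ hI2).add (integrable_finset_sum _ hI3)) measurableSet_Ico hpt
  rw [integral_finset_sum _ hI1, integral_add (integrable_finset_sum _ hI2)
    (integrable_finset_sum _ hI3), integral_finset_sum _ hI2, integral_finset_sum _ hI3] at hmain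
  have e1 : ∀ p ∈ SS, (3/4) * lam * sc m p.1 ^ 2 ≤ ∫ t in Ico 0 (4 ^ m),
      (II m p.1 p.2.2).indicator (fun t => (∫ x in II m p.1 p.2.1, XX Pr p.1 x t) -
        ∫ x in II m p.1 p.2.1, XX Pr 0 x t) t := by
    intro p hp
    have hs := sc_pos m p.1
    rw [setIntegral_indicator (meas_II _ _ _), inter_eq_right.mpr (h2 p hp), integral_sub
      ((int_t Pr hB hRep hgi hgo (h1 p hp).2 p.1 p.2.1).mono_set (h2 p hp))
      ((int_t Pr hB hRep hgi hgo (Nat.zero_le _) p.1 p.2.1).mono_set (h2 p hp))]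
    have e2 := hstop p hp
    unfold avg at e2
    have e3 : ∫ t in II m p.1 p.2.2, ∫ x in II m p.1 p.2.1, XX Pr 0 x t ≤
        ∫ t in II m p.1 p.2.2, (lam / 4 * sc m p.1) := by
      apply setIntegral_mono_on
        ((int_t Pr hB hRep hgi hgo (Nat.zero_le _) p.1 p.2.1).mono_set (h2 p hp))
      · exact integrableOn_const (by rw [vol_II]; exact ENNReal.ofReal_ne_top)
      · exact meas_II _ _ _
      · intro t ht
        have ht' := h2 p hp ht
        have e4 : ∫ x in II m p.1 p.2.1, XX Pr 0 x t ≤ ∫ x in II m p.1 p.2.1, lam / 4 := by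
          apply setIntegral_mono_on (int_x Pr hB hRep hgi hgo (Nat.zero_le _) ht'.1 ht'.2 _ _)
          · exact integrableOn_const (by rw [vol_II]; exact ENNReal.ofReal_ne_top)
          · exact meas_II _ _ _
          · intro x hx
            exact hX0 p hp t ht x hx
        refine e4.trans (le_of_eq ?_)
        rw [setIntegral_const, volr_II, smul_eq_mul, mul_comm]
    rw [setIntegral_const, volr_II, smul_eq_mul] at e3
    nlinarith
  have e5 : ∀ p ∈ SS, ∫ t in Ico 0 (4 ^ m),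
      (II m p.1 p.2.2).indicator (fun _ => lam / 4 * sc m p.1) t = lam / 4 * sc m p.1 ^ 2 := by
    intro p hp
    rw [setIntegral_indicator (meas_II _ _ _), inter_eq_right.mpr (h2 p hp), setIntegral_const,
      volr_II, smul_eq_mul]
    ring
  have e6 : ∑ j ∈ Finset.range N, ∫ t in Ico 0 (4 ^ m), CM / lam * GG Pr (j + 1) t ≤
      CM / lam * V := by
    simp only [integral_const_mul]
    rw [← Finset.mul_sum]
    apply mul_le_mul_of_nonneg_left _ (by positivity)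
    refine le_trans (le_of_eq ?_) hSum
    have e7 : ∀ j ∈ Finset.range N, ∫ t in Ico 0 (4 ^ m), GG Pr (j + 1) t =
        (fun l : ℕ => ∑ k ∈ Finset.range (4 ^ l),
          (∫ t in (k * (sc m l) ^ 2)..((k + 1) * (sc m l) ^ 2),
            ∫ a, mu (sc m l) a *
              ‖uh (Pr.gi l k) (Pr.gi l k) a t‖ ^ 2)) (j + 1) := by
      intro j _
      exact GG_time Pr hB hRep hgi hgo (j + 1)
    rw [Finset.sum_congr rfl e7, Finset.range_eq_Ico, Finset.sum_Ico_add'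
      (fun l : ℕ => ∑ k ∈ Finset.range (4 ^ l),
          (∫ t in (k * (sc m l) ^ 2)..((k + 1) * (sc m l) ^ 2),
            ∫ a, mu (sc m l) a *
              ‖uh (Pr.gi l k) (Pr.gi l k) a t‖ ^ 2)) 0 N 1]
    apply Finset.sum_congr _ (fun _ _ => rfl)
    ext j
    simp only [Finset.mem_Ico, Finset.mem_Icc]
    omega
  have e8 := Finset.sum_le_sum e1
  rw [← Finset.mul_sum] at e8
  rw [Finset.sum_congr rfl e5, ← Finset.mul_sum] at hmain
  have e9 : lam / 2 * ∑ p ∈ SS, sc m p.1 ^ 2 ≤ CM / lam * V := by linarith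
  have e10 : 2 * lam * (lam / 2 * ∑ p ∈ SS, sc m p.1 ^ 2) ≤ 2 * lam * (CM / lam * V) :=
    mul_le_mul_of_nonneg_left e9 (by positivity)
  have e11 : 2 * lam * (CM / lam * V) = 2 * CM * V := by field_simp
  rw [e11] at e10
  calc lam ^ 2 * ∑ p ∈ SS, sc m p.1 ^ 2 = 2 * lam * (lam / 2 * ∑ p ∈ SS, sc m p.1 ^ 2) := by ring
    _ ≤ _ := e10

/-- good times in squares which are not stopped -/
lemma good_time {l : ℕ} (hl : l ≤ N) {lam : ℝ} (hlam : 0 < lam) {q : ℤ × ℤ}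
    (hq : II m l q.2 ⊆ Ico 0 (4 ^ m)) (h : avg Pr l q < lam * sc m l ^ 2) :
    ∃ t ∈ II m l q.2, ∀ x ∈ II m l q.1, XX Pr l x t ≤ 27 * lam := by
  by_contra hc
  push Not at hc
  have hs := sc_pos m l
  have h3 : ∀ t ∈ II m l q.2, ∀ x ∈ II m l q.1, lam ≤ XX Pr l x t := by
    intro t ht x hx
    obtain ⟨x', hx', h4⟩ := hc t ht
    have ht' := hq ht
    have h5 := XX_comp Pr hB hRep hgi hgo hl ht'.1 ht'.2 (II_near hx' hx)
    linarith
  have h6 : lam * sc m l ^ 2 ≤ avg Pr l q := by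
    unfold avg
    have e : lam * sc m l ^ 2 = ∫ t in II m l q.2, (lam * sc m l) := by
      rw [setIntegral_const, volr_II, smul_eq_mul]; ring
    rw [e]
    apply setIntegral_mono_on _ ((int_t Pr hB hRep hgi hgo hl l q.1).mono_set hq) (meas_II _ _ _)
    · intro t ht
      have ht' := hq ht
      have e' : lam * sc m l = ∫ x in II m l q.1, lam := by
        rw [setIntegral_const, volr_II, smul_eq_mul]; ring
      rw [e']
      apply setIntegral_mono_on _ (int_x Pr hB hRep hgi hgo hl ht'.1 ht'.2 _ _) (meas_II _ _ _)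
      · intro x hx
        exact h3 t ht x hx
      · exact integrableOn_const (by rw [vol_II]; exact ENNReal.ofReal_ne_top)
    · exact integrableOn_const (by rw [vol_II]; exact ENNReal.ofReal_ne_top)
  linarith

end

/-! ### contribution of the removed packets -/

lemma int_psi {ψ : ℝ → ℝ} (hψ : Bump ψ) {g : ℝ → ℂ} (hg : Integrable g) (x t : ℝ) :
    Integrable (fun ξ => (ψ ξ : ℂ) * g ξ * ex (x * ξ - t * ξ ^ 2)) := by
  obtain ⟨M, hM⟩ := hψ.2.exists_bound_of_continuous hψ.1.continuous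
  have h1 : Integrable (fun ξ => (ψ ξ : ℂ) * g ξ) := by
    refine hg.bdd_mul (c := M) ?_ (Filter.Eventually.of_forall fun ξ => ?_)
    · exact (Complex.continuous_ofReal.comp hψ.1.continuous).aestronglyMeasurable
    · rw [Complex.norm_real]; exact hM ξ
  refine h1.mul_bdd (c := 1) ?_ (Filter.Eventually.of_forall fun ξ => (ex_norm _).le)
  exact (ex_cont.comp (by fun_prop : Continuous fun ξ : ℝ => x * ξ - t * ξ ^ 2)).aestronglyMeasurable

lemma int_pk {ψ : ℝ → ℝ} (hψ : Bump ψ) (s y η t₀ x t : ℝ) :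
    Integrable (fun ξ => (ψ ξ : ℂ) * pk s y η t₀ ξ * ex (x * ξ - t * ξ ^ 2)) := by
  have hc : Continuous (fun ξ => (ψ ξ : ℂ) * pk s y η t₀ ξ * ex (x * ξ - t * ξ ^ 2)) := by
    apply Continuous.mul
    · apply Continuous.mul
      · exact Complex.continuous_ofReal.comp hψ.1.continuous
      · exact pk_cont1 s (y, η, t₀)
    · exact ex_cont.comp (by fun_prop : Continuous fun ξ : ℝ => x * ξ - t * ξ ^ 2)
  apply hc.integrable_of_hasCompactSupport
  have h1 : HasCompactSupport (fun ξ => (ψ ξ : ℂ)) :=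
    hψ.2.comp_left (g := fun r : ℝ => (r : ℂ)) Complex.ofReal_zero
  exact (h1.mul_right).mul_right

/-- pruning at one scale changes the band-limited solution by at most the removed energy -/
lemma step_diff {B b C₀ C₁ s t₀ : ℝ} {g g' : ℝ → ℂ} {n : ℕ} {c : ℕ → ℂ} {y η : ℕ → ℝ}
    (hP : Pruned B b C₀ C₁ s t₀ g g' n c y η) (hs : 0 < s) (hb : 0 < b) (hB : 1 ≤ B)
    {ψ : ℝ → ℝ} (hψ : Bump ψ) {C : ℝ} (hC : 0 < C) {x t t' : ℝ}
    (hK : ∀ y η : ℝ, ‖sol (fun ξ => ψ ξ * pk s y η t₀ ξ) x t'‖ ≤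
      C * Real.sqrt s * W (B * s) (x - y - 2 * η * (t - t₀))) (ht : |t - t₀| ≤ s ^ 2) :
    ‖sol (fun ξ => ψ ξ * g ξ) x t' - sol (fun ξ => ψ ξ * g' ξ) x t'‖ ≤
      2 * C / b * (En B s x t g - En B s x t g') := by
  have e1 : sol (fun ξ => ψ ξ * g ξ) x t' - sol (fun ξ => ψ ξ * g' ξ) x t' =
      ∑ i ∈ Finset.range n, c i * sol (fun ξ => ψ ξ * pk s (y i) (η i) t₀ ξ) x t' := by
    unfold sol
    rw [← integral_sub (int_psi hψ hP.good.1 x t') (int_psi hψ hP.good'.1 x t')]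
    have e2 : ∀ i ∈ Finset.range n, c i * ∫ ξ, (ψ ξ : ℂ) * pk s (y i) (η i) t₀ ξ *
        ex (x * ξ - t' * ξ ^ 2) = ∫ ξ, c i * ((ψ ξ : ℂ) * pk s (y i) (η i) t₀ ξ *
        ex (x * ξ - t' * ξ ^ 2)) := by
      intro i _; rw [integral_const_mul]
    rw [Finset.sum_congr rfl e2, ← integral_finset_sum]
    · congr 1
      funext ξ
      rw [hP.eq ξ, ← sub_mul, ← mul_sub, add_sub_cancel_left, Finset.mul_sum, Finset.sum_mul]
      apply Finset.sum_congr rfl
      intro i _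
      ring
    · intro i _
      exact (int_pk hψ _ _ _ _ _ _).const_mul _
  rw [e1]
  have h2 := hP.lo x t ht
  have h3 : ‖∑ i ∈ Finset.range n, c i * sol (fun ξ => ψ ξ * pk s (y i) (η i) t₀ ξ) x t'‖ ≤
      ∑ i ∈ Finset.range n, C / b * (‖c i‖ ^ 2 * W (B * s) (x - y i - 2 * η i * (t - t₀))) := by
    refine (norm_sum_le _ _).trans ?_
    apply Finset.sum_le_sum
    intro i hi
    rw [Finset.mem_range] at hi
    rw [norm_mul]
    have hbig := hP.big i hi
    have hW := W_nonneg (by positivity : 0 < B * s) (x - y i - 2 * η i * (t - t₀))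
    have h4 : Real.sqrt s ≤ ‖c i‖ / b := by
      rw [le_div_iff₀ hb]; linarith
    calc ‖c i‖ * ‖sol (fun ξ => ψ ξ * pk s (y i) (η i) t₀ ξ) x t'‖
        ≤ ‖c i‖ * (C * Real.sqrt s * W (B * s) (x - y i - 2 * η i * (t - t₀))) :=
          mul_le_mul_of_nonneg_left (hK _ _) (norm_nonneg _)
      _ ≤ ‖c i‖ * (C * (‖c i‖ / b) * W (B * s) (x - y i - 2 * η i * (t - t₀))) := by
          apply mul_le_mul_of_nonneg_left _ (norm_nonneg _)
          apply mul_le_mul_of_nonneg_right _ hW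
          exact mul_le_mul_of_nonneg_left h4 hC.le
      _ = _ := by ring
  refine h3.trans ?_
  rw [← Finset.mul_sum]
  have h5 : 0 < C / b := by positivity
  calc C / b * ∑ i ∈ Finset.range n, ‖c i‖ ^ 2 * W (B * s) (x - y i - 2 * η i * (t - t₀))
      = 2 * C / b * ((1/2) * ∑ i ∈ Finset.range n, ‖c i‖ ^ 2 *
          W (B * s) (x - y i - 2 * η i * (t - t₀))) := by ring
    _ ≤ _ := mul_le_mul_of_nonneg_left h2 (by positivity)

/-- total contribution of the removed packets down to level `l` -/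
lemma total_diff {B b C₀ C₁ : ℝ} {m N : ℕ} {g : ℝ → ℂ} (Pr : Proc B b C₀ C₁ m N g)
    (hB : 1 ≤ B) (hb : 0 < b) (hNm : N ≤ m) {ψ : ℝ → ℝ} (hψ : Bump ψ) {C : ℝ} (hC : 0 < C)
    (hK : ∀ s : ℝ, 1 ≤ s → ∀ y η t₀ t t' x : ℝ, |t - t₀| ≤ s ^ 2 → |t' - t| ≤ 4 * s →
      ‖sol (fun ξ => ψ ξ * pk s y η t₀ ξ) x t'‖ ≤
        C * Real.sqrt s * W (B * s) (x - y - 2 * η * (t - t₀)))
    {x t t' : ℝ} (h0 : 0 ≤ t) (h1 : t < 4 ^ m) :
    ∀ l : ℕ, l ≤ N → |t' - t| ≤ 4 * sc m l →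
    ‖sol (fun ξ => ψ ξ * g ξ) x t' - sol (fun ξ => ψ ξ * Pr.go l (kk m l t) ξ) x t'‖ ≤
      2 * C / b * ∑ i ∈ Finset.range (l + 1), dd Pr i x t := by
  have hstep : ∀ l : ℕ, l ≤ N → |t' - t| ≤ 4 * sc m l →
      ‖sol (fun ξ => ψ ξ * Pr.gi l (kk m l t) ξ) x t' -
        sol (fun ξ => ψ ξ * Pr.go l (kk m l t) ξ) x t'‖ ≤ 2 * C / b * dd Pr l x t := by
    intro l hl ht'
    have hs1 : 1 ≤ sc m l := sc_ge_one (hl.trans hNm)
    exact step_diff (Pr.prn l hl _ (kk_lt h0 h1)) (sc_pos m l) hb hB hψ hC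
      (fun y η => hK (sc m l) hs1 y η _ t t' x (ct_near h0) ht') (ct_near h0)
  intro l
  induction l with
  | zero =>
    intro hl ht'
    have h := hstep 0 hl ht'
    rw [Finset.sum_range_one]
    have e : Pr.gi 0 (kk m 0 t) = g := by rw [kk_zero h0 h1]; exact Pr.top
    rw [e] at h
    exact h
  | succ l ih =>
    intro hl ht'
    have h2 := hstep (l + 1) hl ht'
    have h3 := ih (by omega) (ht'.trans (by
      have := sc_anti m (Nat.le_succ l)
      linarith))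
    rw [gi_succ Pr (by omega) h0 h1] at h2
    rw [Finset.sum_range_succ, mul_add]
    calc _ = ‖(sol (fun ξ => ψ ξ * g ξ) x t' - sol (fun ξ => ψ ξ * Pr.go l (kk m l t) ξ) x t') +
          (sol (fun ξ => ψ ξ * Pr.go l (kk m l t) ξ) x t' -
            sol (fun ξ => ψ ξ * Pr.go (l + 1) (kk m (l + 1) t) ξ) x t')‖ := by
          congr 1; ring
      _ ≤ _ := norm_add_le _ _
      _ ≤ _ := add_le_add h3 h2

end Vale.Agent.P076.H629
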