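import Vale.Agent.P076.X.SpecP

/-! # P076, X.STOP: basic facts on `W`, `cf`, `En`, `uh`, `kh` -/

set_option linter.all false

open MeasureTheory Set

namespace Vale.Agent.P076.H629

open Vale.Agent.P076.X

/-! ### the weight -/

lemma W_pos {r : ℝ} (hr : 0 < r) (x : ℝ) : 0 < W r x := by
  unfold W; positivity

lemma W_nonneg {r : ℝ} (hr : 0 < r) (x : ℝ) : 0 ≤ W r x := (W_pos hr x).le

lemma W_le {r : ℝ} (hr : 0 < r) (x : ℝ) : W r x ≤ 2 / (Real.pi * r) := by
  unfold W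
  have h1 : ((1 + x ^ 2 / r ^ 2) ^ 2)⁻¹ ≤ 1 := by
    apply inv_le_one_of_one_le₀
    have : 0 ≤ x ^ 2 / r ^ 2 := by positivity
    nlinarith
  calc 2 / (Real.pi * r) * ((1 + x ^ 2 / r ^ 2) ^ 2)⁻¹ ≤ 2 / (Real.pi * r) * 1 :=
        mul_le_mul_of_nonneg_left h1 (by positivity)
    _ = _ := mul_one _

lemma W_cont (r : ℝ) : Continuous (fun x => W r x) := by
  unfold W
  apply Continuous.mul continuous_const
  apply Continuous.inv₀ (by fun_prop)
  intro x
  positivity

lemma W_comp {r : ℝ} (hr : 0 < r) {x x' : ℝ} (h : |x - x'| ≤ r) : W r x ≤ 9 * W r x' := by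
  unfold W
  have h0 : (x - x') ^ 2 ≤ r ^ 2 := by
    rw [← sq_abs]; exact pow_le_pow_left₀ (abs_nonneg _) h 2
  have h1 : 1 + x' ^ 2 / r ^ 2 ≤ 3 * (1 + x ^ 2 / r ^ 2) := by
    have hr2 : 0 < r ^ 2 := by positivity
    have : x' ^ 2 / r ^ 2 ≤ 2 + 3 * (x ^ 2 / r ^ 2) := by
      rw [div_le_iff₀ hr2]
      have e : x ^ 2 / r ^ 2 * r ^ 2 = x ^ 2 := by field_simp
      nlinarith [sq_nonneg (x - 2 * (x - x')), sq_nonneg (x + x'), sq_nonneg (2 * x - x')]
    linarith
  have h2 : (1 + x' ^ 2 / r ^ 2) ^ 2 ≤ 9 * (1 + x ^ 2 / r ^ 2) ^ 2 := by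
    have : 0 ≤ x' ^ 2 / r ^ 2 := by positivity
    have h3 := pow_le_pow_left₀ (by positivity) h1 2
    nlinarith
  have h3 : ((1 + x ^ 2 / r ^ 2) ^ 2)⁻¹ ≤ 9 * ((1 + x' ^ 2 / r ^ 2) ^ 2)⁻¹ := by
    rw [← div_eq_mul_inv, le_div_iff₀ (by positivity), inv_mul_le_iff₀ (by positivity)]
    linarith
  calc 2 / (Real.pi * r) * ((1 + x ^ 2 / r ^ 2) ^ 2)⁻¹
      ≤ 2 / (Real.pi * r) * (9 * ((1 + x' ^ 2 / r ^ 2) ^ 2)⁻¹) :=
        mul_le_mul_of_nonneg_left h3 (by positivity)
    _ = _ := by ring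

lemma W_int {r : ℝ} (hr : 0 < r) : Integrable (fun x => W r x) ∧ ∫ x, W r x ≤ 2 := by
  have hd : ∀ x : ℝ, W r x ≤ 2 / (Real.pi * r) * (1 + (r⁻¹ * x) ^ 2)⁻¹ := by
    intro x
    unfold W
    apply mul_le_mul_of_nonneg_left _ (by positivity)
    have e : x ^ 2 / r ^ 2 = (r⁻¹ * x) ^ 2 := by field_simp
    rw [e]
    apply inv_anti₀ (by positivity)
    nlinarith [sq_nonneg (r⁻¹ * x)]
  have hi : Integrable (fun x : ℝ => 2 / (Real.pi * r) * (1 + (r⁻¹ * x) ^ 2)⁻¹) := by
    apply Integrable.const_mul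
    exact (integrable_inv_one_add_sq).comp_mul_left' (inv_ne_zero hr.ne')
  have hv : ∫ x : ℝ, 2 / (Real.pi * r) * (1 + (r⁻¹ * x) ^ 2)⁻¹ = 2 := by
    rw [integral_const_mul]
    have := MeasureTheory.Measure.integral_comp_mul_left (fun x : ℝ => (1 + x ^ 2)⁻¹) (r⁻¹)
    rw [this, integral_univ_inv_one_add_sq]
    simp only [inv_inv, smul_eq_mul, abs_of_pos hr]
    field_simp
  have hW : Integrable (fun x => W r x) := by
    refine hi.mono' (W_cont r).aestronglyMeasurable (Filter.Eventually.of_forall fun x => ?_)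
    rw [Real.norm_of_nonneg (W_nonneg hr x)]
    exact hd x
  refine ⟨hW, ?_⟩
  rw [← hv]
  exact integral_mono hW hi hd

/-! ### packets and coefficients -/

lemma ex_norm (x : ℝ) : ‖ex x‖ = 1 := by
  unfold ex; exact Complex.norm_exp_ofReal_mul_I _

lemma ex_cont : Continuous ex := by
  unfold ex; fun_prop

lemma pk_cont (s : ℝ) : Continuous (fun p : (ℝ × ℝ × ℝ) × ℝ => pk s p.1.1 p.1.2.1 p.1.2.2 p.2) := by
  unfold pk
  apply Continuous.mul
  · apply Complex.continuous_ofReal.comp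
    fun_prop
  · exact ex_cont.comp (by fun_prop)

lemma pk_cont1 (s : ℝ) (p : ℝ × ℝ × ℝ) : Continuous (fun ξ => pk s p.1 p.2.1 p.2.2 ξ) := by
  have h := (pk_cont s).comp (f := fun ξ : ℝ => (p, ξ)) (by fun_prop)
  exact h

lemma pk_cont2 (s : ℝ) (ξ : ℝ) : Continuous (fun p : ℝ × ℝ × ℝ => pk s p.1 p.2.1 p.2.2 ξ) := by
  have h := (pk_cont s).comp (f := fun p : ℝ × ℝ × ℝ => (p, ξ)) (by fun_prop)
  exact h

lemma pk_norm (s y η t ξ : ℝ) : ‖pk s y η t ξ‖ ≤ (2:ℝ) ^ (1/4 : ℝ) * Real.sqrt s := by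
  unfold pk
  rw [norm_mul, ex_norm, mul_one, Complex.norm_real, Real.norm_of_nonneg (by positivity)]
  have : Real.exp (-Real.pi * s ^ 2 * (ξ - η) ^ 2) ≤ 1 := by
    apply Real.exp_le_one_iff.mpr
    have : 0 ≤ Real.pi * s ^ 2 * (ξ - η) ^ 2 := by positivity
    linarith
  exact mul_le_of_le_one_right (by positivity) this

lemma cf_cont (s : ℝ) {g : ℝ → ℂ} (hg : Integrable g) :
    Continuous (fun p : ℝ × ℝ × ℝ => cf s p.1 p.2.1 p.2.2 g) := by
  unfold cf
  apply continuous_of_dominated (bound := fun ξ => ‖g ξ‖ * ((2:ℝ) ^ (1/4 : ℝ) * Real.sqrt s))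
  · intro p
    apply hg.aestronglyMeasurable.mul
    apply Continuous.aestronglyMeasurable
    apply Complex.continuous_conj.comp
    exact pk_cont1 s p
  · intro p
    refine Filter.Eventually.of_forall fun ξ => ?_
    rw [norm_mul, RCLike.norm_conj]
    exact mul_le_mul_of_nonneg_left (pk_norm _ _ _ _ _) (norm_nonneg _)
  · exact hg.norm.mul_const _
  · refine Filter.Eventually.of_forall fun ξ => ?_
    apply Continuous.mul continuous_const
    apply Complex.continuous_conj.comp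
    exact pk_cont2 s ξ

lemma ms_nonneg (g : ℝ → ℂ) : 0 ≤ ms g := integral_nonneg fun _ => by positivity

lemma rep_sq (hRep : StRep) {s : ℝ} (hs : 0 < s) (t : ℝ) {g : ℝ → ℂ} (hg : Good g) :
    Integrable (fun p : ℝ × ℝ => ‖cf s p.1 p.2 t g‖ ^ 2) ∧
    ∫ p : ℝ × ℝ, ‖cf s p.1 p.2 t g‖ ^ 2 = ms g := by
  obtain ⟨h1, h2⟩ := hRep s hs t g g hg hg
  have e : ∀ z : ℂ, z * (starRingEnd ℂ) z = ((‖z‖ ^ 2 : ℝ) : ℂ) := by
    intro z; rw [Complex.mul_conj, Complex.normSq_eq_norm_sq]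
  simp only [e] at h1 h2
  refine ⟨?_, ?_⟩
  · have := h1.norm
    simpa using this
  · rw [integral_complex_ofReal, integral_complex_ofReal] at h2
    unfold ms
    exact_mod_cast h2

lemma En_integrable (hRep : StRep) {B s : ℝ} (hB : 0 < B) (hs : 0 < s) (x t : ℝ) {g : ℝ → ℂ}
    (hg : Good g) :
    Integrable (fun p : ℝ × ℝ => W (B * s) (x - p.1) * ‖cf s p.1 p.2 t g‖ ^ 2) := by
  have h := (rep_sq hRep hs t hg).1
  refine (h.const_mul (2 / (Real.pi * (B * s)))).mono' ?_ (Filter.Eventually.of_forall fun p => ?_)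
  · apply AEStronglyMeasurable.mul _ h.aestronglyMeasurable
    exact ((W_cont _).comp (by fun_prop)).aestronglyMeasurable
  · have hBs : 0 < B * s := by positivity
    rw [Real.norm_of_nonneg (mul_nonneg (W_nonneg hBs _) (by positivity))]
    exact mul_le_mul_of_nonneg_right (W_le hBs _) (by positivity)

lemma En_nonneg {B s : ℝ} (hB : 0 < B) (hs : 0 < s) (x t : ℝ) (g : ℝ → ℂ) :
    0 ≤ En B s x t g := by
  unfold En
  exact integral_nonneg fun p => mul_nonneg (W_nonneg (by positivity) _) (by positivity)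

lemma En_le (hRep : StRep) {B s : ℝ} (hB : 0 < B) (hs : 0 < s) (x t : ℝ) {g : ℝ → ℂ}
    (hg : Good g) : En B s x t g ≤ 2 / (Real.pi * (B * s)) * ms g := by
  have h := rep_sq hRep hs t hg
  rw [← h.2, ← integral_const_mul]
  unfold En
  refine integral_mono (En_integrable hRep hB hs x t hg) (h.1.const_mul _) fun p => ?_
  exact mul_le_mul_of_nonneg_right (W_le (by positivity) _) (by positivity)

lemma En_comp (hRep : StRep) {B s : ℝ} (hB : 0 < B) (hs : 0 < s) {x x' : ℝ} (t : ℝ) {g : ℝ → ℂ}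
    (hg : Good g) (h : |x - x'| ≤ B * s) : En B s x t g ≤ 9 * En B s x' t g := by
  unfold En
  rw [← integral_const_mul]
  refine integral_mono (En_integrable hRep hB hs x t hg)
    ((En_integrable hRep hB hs x' t hg).const_mul _) fun p => ?_
  show W (B * s) (x - p.1) * ‖cf s p.1 p.2 t g‖ ^ 2 ≤
    9 * (W (B * s) (x' - p.1) * ‖cf s p.1 p.2 t g‖ ^ 2)
  rw [← mul_assoc]
  apply mul_le_mul_of_nonneg_right _ (by positivity)
  apply W_comp (by positivity)
  rwa [sub_sub_sub_cancel_right]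

lemma En_meas (B s : ℝ) {g : ℝ → ℂ} (hg : Integrable g) :
    Measurable (fun p : ℝ × ℝ => En B s p.1 p.2 g) := by
  have h1 : Continuous (fun x : (ℝ × ℝ) × (ℝ × ℝ) => cf s x.2.1 x.2.2 x.1.2 g) := by
    have h := (cf_cont s hg).comp
      (f := fun x : (ℝ × ℝ) × (ℝ × ℝ) => (x.2.1, x.2.2, x.1.2)) (by fun_prop)
    exact h
  have h2 : Continuous (fun x : (ℝ × ℝ) × (ℝ × ℝ) => W (B * s) (x.1.1 - x.2.1)) := by
    have h := (W_cont (B * s)).comp
      (f := fun x : (ℝ × ℝ) × (ℝ × ℝ) => x.1.1 - x.2.1) (by fun_prop)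
    exact h
  unfold En
  apply StronglyMeasurable.measurable
  apply StronglyMeasurable.integral_prod_right
    (f := fun (p : ℝ × ℝ) (q : ℝ × ℝ) => W (B * s) (p.1 - q.1) * ‖cf s q.1 q.2 p.2 g‖ ^ 2)
  exact (h2.mul (h1.norm.pow 2)).stronglyMeasurable

/-- total energy over all positions -/
lemma En_lint (hRep : StRep) {B s : ℝ} (hB : 0 < B) (hs : 0 < s) (t : ℝ) {g : ℝ → ℂ}
    (hg : Good g) : ∫⁻ x, ENNReal.ofReal (En B s x t g) ≤ ENNReal.ofReal (2 * ms g) := by
  have hBs : 0 < B * s := by positivity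
  have h := rep_sq hRep hs t hg
  have e1 : ∀ x, ENNReal.ofReal (En B s x t g) =
      ∫⁻ p : ℝ × ℝ, ENNReal.ofReal (W (B * s) (x - p.1) * ‖cf s p.1 p.2 t g‖ ^ 2) := by
    intro x
    unfold En
    exact ofReal_integral_eq_lintegral_ofReal (En_integrable hRep hB hs x t hg)
      (Filter.Eventually.of_forall fun p => mul_nonneg (W_nonneg hBs _) (by positivity))
  simp only [e1]
  have hcf : Continuous (fun x : ℝ × (ℝ × ℝ) => cf s x.2.1 x.2.2 t g) := by
    have h := (cf_cont s hg.1).comp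
      (f := fun x : ℝ × (ℝ × ℝ) => (x.2.1, x.2.2, t)) (by fun_prop)
    exact h
  rw [lintegral_lintegral_swap]
  · have e2 : ∀ p : ℝ × ℝ, ∫⁻ x, ENNReal.ofReal (W (B * s) (x - p.1) * ‖cf s p.1 p.2 t g‖ ^ 2)
        ≤ 2 * ENNReal.ofReal (‖cf s p.1 p.2 t g‖ ^ 2) := by
      intro p
      have : ∀ x, ENNReal.ofReal (W (B * s) (x - p.1) * ‖cf s p.1 p.2 t g‖ ^ 2) =
          ENNReal.ofReal (W (B * s) (x - p.1)) * ENNReal.ofReal (‖cf s p.1 p.2 t g‖ ^ 2) := by
        intro x; rw [ENNReal.ofReal_mul (W_nonneg hBs _)]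
      simp only [this]
      rw [lintegral_mul_const _ (by
        exact (((W_cont _).comp (by fun_prop : Continuous fun x : ℝ => x - p.1)).measurable).ennreal_ofReal)]
      apply mul_le_mul_left
      rw [lintegral_sub_right_eq_self (fun x => ENNReal.ofReal (W (B * s) x)) p.1,
        ← ofReal_integral_eq_lintegral_ofReal (W_int hBs).1
          (Filter.Eventually.of_forall fun x => W_nonneg hBs x)]
      have := ENNReal.ofReal_le_ofReal (W_int hBs).2
      simpa using this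
    refine (lintegral_mono e2).trans ?_
    rw [lintegral_const_mul' _ _ (by norm_num),
      ← ofReal_integral_eq_lintegral_ofReal h.1 (Filter.Eventually.of_forall fun p => by positivity),
      h.2, ENNReal.ofReal_mul (by norm_num)]
    simp
  · apply Measurable.aemeasurable
    apply Measurable.ennreal_ofReal
    apply Continuous.measurable
    apply Continuous.mul
    · exact (W_cont _).comp (by fun_prop)
    · exact (hcf.norm).pow 2

/-! ### `uh` and `kh` -/

lemma good_shift {g : ℝ → ℂ} (hg : Good g) (a : ℝ) : Good (fun ξ => g (ξ + a)) := by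
  refine ⟨hg.1.comp_add_right a, ?_⟩
  exact hg.2.comp_measurePreserving (measurePreserving_add_right volume a)

lemma good_sq {g : ℝ → ℂ} (hg : Good g) : Integrable (fun ξ => ‖g ξ‖ ^ 2) := by
  have := hg.2.integrable_norm_pow (p := 2) (by norm_num)
  simpa using this

lemma uh_norm_le {g : ℝ → ℂ} (hg : Good g) (a t : ℝ) : ‖uh g g a t‖ ≤ ms g := by
  unfold uh
  have h1 := good_sq hg
  have h2 : Integrable (fun ξ => ‖g (ξ + a)‖ ^ 2) := h1.comp_add_right a
  refine (norm_integral_le_of_norm_le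
    (g := fun ξ => (1/2) * (‖g (ξ + a)‖ ^ 2 + ‖g ξ‖ ^ 2)) ?_ ?_).trans ?_
  · exact (h2.add h1).const_mul _
  · refine Filter.Eventually.of_forall fun ξ => ?_
    rw [norm_mul, norm_mul, ex_norm, mul_one, RCLike.norm_conj]
    nlinarith [sq_nonneg (‖g (ξ + a)‖ - ‖g ξ‖)]
  · rw [integral_const_mul, integral_add h2 h1,
      integral_add_right_eq_self (fun ξ => ‖g ξ‖ ^ 2) a]
    unfold ms
    linarith

lemma uh_meas {g : ℝ → ℂ} (hg : Good g) : Measurable (fun p : ℝ × ℝ => uh g g p.1 p.2) := by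
  obtain ⟨g', hg', he⟩ := hg.1.aestronglyMeasurable
  have e : ∀ a t, uh g g a t = uh g' g' a t := by
    intro a t
    unfold uh
    apply integral_congr_ae
    have h1 : ∀ᵐ ξ : ℝ, g (ξ + a) = g' (ξ + a) :=
      (measurePreserving_add_right volume a).quasiMeasurePreserving.ae he
    filter_upwards [he, h1] with ξ h2 h3
    rw [h2, h3]
  have : (fun p : ℝ × ℝ => uh g g p.1 p.2) = fun p : ℝ × ℝ => uh g' g' p.1 p.2 := by
    funext p; exact e _ _
  rw [this]
  unfold uh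
  apply StronglyMeasurable.measurable
  apply StronglyMeasurable.integral_prod_right
    (f := fun (p : ℝ × ℝ) (ξ : ℝ) => g' (ξ + p.1) * (starRingEnd ℂ) (g' ξ) *
      ex (-(p.2 * ((ξ + p.1) ^ 2 - ξ ^ 2))))
  apply StronglyMeasurable.mul
  · apply StronglyMeasurable.mul
    · exact hg'.comp_measurable (by fun_prop)
    · exact Complex.continuous_conj.comp_stronglyMeasurable (hg'.comp_measurable measurable_snd)
  · exact (ex_cont.comp (by fun_prop)).stronglyMeasurable

lemma mu_nonneg (s a : ℝ) (hs : 0 < s) : 0 ≤ mu s a := by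
  unfold mu; positivity

/-- the weight `mu` is integrable -/
lemma mu_int {s : ℝ} (hs : 0 < s) : Integrable (fun a => mu s a) := by
  have hi : Integrable (fun a : ℝ => Real.exp (-(Real.pi * s ^ 2 / 2) * a ^ 2)) :=
    integrable_exp_neg_mul_sq (by positivity)
  have hc : Continuous (fun a => mu s a) := by
    unfold mu
    fun_prop
  refine hi.mono' hc.aestronglyMeasurable (Filter.Eventually.of_forall fun a => ?_)
  rw [Real.norm_of_nonneg (mu_nonneg s a hs)]
  unfold mu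
  have e : -(Real.pi * s ^ 2 * a ^ 2 / 2) = -(Real.pi * s ^ 2 / 2) * a ^ 2 := by ring
  rw [e]
  exact mul_le_of_le_one_left (by positivity) (min_le_left _ _)

lemma mu_cont (s : ℝ) : Continuous (fun a => mu s a) := by
  unfold mu
  fun_prop

end Vale.Agent.P076.H629
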