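import Vale.Agent.P076.H629.XProc

/-! # P076, X.STOP: the maximal inequality integrated in time -/

set_option linter.all false

open MeasureTheory Set

namespace Vale.Agent.P076.H629

open Vale.Agent.P076.X

/-- the body of `StMaxP` -/
def MaxP (B CM : ℝ) : Prop := ∀ (N : ℕ) (s : ℕ → ℝ), (∀ i, 0 < s i) → (∀ i, s (i + 1) = 2 * s i) →
  ∀ A : ℕ → Set ℝ, (∀ i, MeasurableSet (A i)) → (∀ i, A i ⊆ A (i + 1)) → volume (A N) < ⊤ →
  ∀ U : ℕ → ℝ → ℂ, (∀ i, Measurable (U i)) →
  (∀ i, Integrable (fun a => mu (s i) a * ‖U i a‖ ^ 2)) →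
  (∀ i, Integrable (fun a => ((kh B (s i) a - kh B (2 * s i) a : ℝ) : ℂ) * U i a)) →
  ∀ lam : ℝ, 0 < lam →
  ∑ i ∈ Finset.range (N + 1), (∫ x in A i,
      (∫ a, ((kh B (s i) a - kh B (2 * s i) a : ℝ) : ℂ) * U i a * ex (x * a)).re)
    ≤ lam / 4 * (volume (A N)).toReal + CM / lam *
      ∑ i ∈ Finset.range (N + 1), ∫ a, mu (s i) a * ‖U i a‖ ^ 2

/-- dyadic intervals of level `l` (length `sc m l`) -/
def II (m l : ℕ) (i : ℤ) : Set ℝ := Ico ((i:ℝ) * sc m l) (((i:ℝ) + 1) * sc m l)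

lemma mem_II {m l : ℕ} {i : ℤ} {x : ℝ} : x ∈ II m l i ↔ ⌊x / sc m l⌋ = i := by
  have hs := sc_pos m l
  rw [Int.floor_eq_iff, II, mem_Ico, le_div_iff₀ hs, div_lt_iff₀ hs]

lemma meas_II (m l : ℕ) (i : ℤ) : MeasurableSet (II m l i) := measurableSet_Ico

lemma vol_II (m l : ℕ) (i : ℤ) : volume (II m l i) = ENNReal.ofReal (sc m l) := by
  unfold II
  rw [Real.volume_Ico]
  congr 1
  ring

lemma volr_II (m l : ℕ) (i : ℤ) : (volume.real (II m l i)) = sc m l := by
  rw [Measure.real, vol_II, ENNReal.toReal_ofReal (sc_pos m l).le]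

lemma II_near {m l : ℕ} {i : ℤ} {x x' : ℝ} (h : x ∈ II m l i) (h' : x' ∈ II m l i) :
    |x - x'| ≤ sc m l := by
  unfold II at h h'
  rw [mem_Ico] at h h'
  rw [abs_le]
  constructor <;> nlinarith [h.1, h.2, h'.1, h'.2]

section

variable {B b C₀ C₁ : ℝ} {m N : ℕ} {g : ℝ → ℂ} (Pr : Proc B b C₀ C₁ m N g)
  (hB : 1 ≤ B) (hRep : StRep) (hgi : ∀ l k, Good (Pr.gi l k)) (hgo : ∀ l k, Good (Pr.go l k))

include hB hRep hgi hgo

lemma int_x {l : ℕ} (hl : l ≤ N) {t : ℝ} (h0 : 0 ≤ t) (h1 : t < 4 ^ m) (j : ℕ) (i : ℤ) :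
    IntegrableOn (fun x => XX Pr l x t) (II m j i) := by
  obtain ⟨M, hM⟩ := XX_bdd Pr hB hRep hgi hgo hl
  apply Measure.integrableOn_of_bounded (M := M)
  · rw [vol_II]; exact ENNReal.ofReal_ne_top
  · have h := (XX_meas Pr hB hRep hgi hgo l).comp (f := fun x : ℝ => (x, t)) (by fun_prop)
    exact h.aestronglyMeasurable
  · refine Filter.Eventually.of_forall fun x => ?_
    exact hM t h0 h1 x

lemma sm_FF (l j : ℕ) (i : ℤ) :
    StronglyMeasurable (fun t => ∫ x in II m j i, XX Pr l x t) := by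
  apply StronglyMeasurable.integral_prod_right (f := fun (t x : ℝ) => XX Pr l x t)
  have h := (XX_meas Pr hB hRep hgi hgo l).comp
    (f := fun x : ℝ × ℝ => (x.2, x.1)) (by fun_prop)
  exact h.stronglyMeasurable

lemma int_t {l : ℕ} (hl : l ≤ N) (j : ℕ) (i : ℤ) :
    IntegrableOn (fun t => ∫ x in II m j i, XX Pr l x t) (Ico 0 (4 ^ m)) := by
  obtain ⟨M, hM⟩ := XX_bdd Pr hB hRep hgi hgo hl
  apply Measure.integrableOn_of_bounded (M := M * sc m j)
  · rw [Real.volume_Ico]; exact ENNReal.ofReal_ne_top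
  · exact (sm_FF Pr hB hRep hgi hgo l j i).aestronglyMeasurable
  · rw [ae_restrict_iff' measurableSet_Ico]
    refine Filter.Eventually.of_forall fun t ht => ?_
    rw [← volr_II m j i]
    apply norm_setIntegral_le_of_norm_le_const
    · rw [vol_II]; exact ENNReal.ofReal_lt_top
    · intro x _
      exact hM t ht.1 ht.2 x

omit hB hRep hgi hgo in
/-- the quadratic quantity at time `t` -/
noncomputable def GG (l : ℕ) (t : ℝ) : ℝ :=
  ∫ a, mu (sc m l) a * ‖uh (Pr.gi l (kk m l t)) (Pr.gi l (kk m l t)) a t‖ ^ 2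

lemma sm_uh (l : ℕ) : Measurable (fun p : ℝ × ℝ =>
    uh (Pr.gi l (kk m l p.1)) (Pr.gi l (kk m l p.1)) p.2 p.1) := by
  have h1 : Measurable (fun q : ℕ × (ℝ × ℝ) => uh (Pr.gi l q.1) (Pr.gi l q.1) q.2.2 q.2.1) := by
    apply measurable_from_prod_countable_right
    intro k
    have h := (uh_meas (hgi l k)).comp (f := fun p : ℝ × ℝ => (p.2, p.1)) (by fun_prop)
    exact h
  have h2 : Measurable (fun p : ℝ × ℝ => ((kk m l p.1, p) : ℕ × (ℝ × ℝ))) :=
    ((kk_meas m l).comp measurable_fst).prodMk measurable_id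
  have h3 := h1.comp h2
  exact h3

lemma int_UU {s : ℝ} (hs : 0 < s) (l k : ℕ) (t : ℝ) :
    Integrable (fun a => mu s a * ‖uh (Pr.gi l k) (Pr.gi l k) a t‖ ^ 2) := by
  have h2 := mu_int hs
  refine (h2.mul_const (ms (Pr.gi l k) ^ 2)).mono' ?_ (Filter.Eventually.of_forall fun a => ?_)
  · apply h2.aestronglyMeasurable.mul
    have h := (uh_meas (hgi l k)).comp (f := fun a : ℝ => (a, t)) (by fun_prop)
    have h' := (h.norm.pow_const 2).aestronglyMeasurable (μ := (volume : Measure ℝ))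
    exact h'
  · rw [Real.norm_of_nonneg (mul_nonneg (mu_nonneg _ _ hs) (by positivity))]
    apply mul_le_mul_of_nonneg_left _ (mu_nonneg _ _ hs)
    exact pow_le_pow_left₀ (norm_nonneg _) (uh_norm_le (hgi l k) a t) 2

lemma GG_int (l : ℕ) : IntegrableOn (fun t => GG Pr l t) (Ico 0 (4 ^ m)) := by
  have hs := sc_pos m l
  have h2 := mu_int hs
  have h1 : ∀ a, 0 ≤ mu (sc m l) a := fun a => mu_nonneg _ _ hs
  have hI0 : 0 ≤ ∫ a, mu (sc m l) a := integral_nonneg h1
  refine Measure.integrableOn_of_bounded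
    (M := ∑ k ∈ Finset.range (4 ^ l), (∫ a, mu (sc m l) a) * ms (Pr.gi l k) ^ 2) ?_ ?_ ?_
  · rw [Real.volume_Ico]; exact ENNReal.ofReal_ne_top
  · apply StronglyMeasurable.aestronglyMeasurable
    unfold GG
    apply StronglyMeasurable.integral_prod_right
      (f := fun (t a : ℝ) => mu (sc m l) a *
        ‖uh (Pr.gi l (kk m l t)) (Pr.gi l (kk m l t)) a t‖ ^ 2)
    apply Measurable.stronglyMeasurable
    apply Measurable.mul
    · have h := (mu_cont (sc m l)).measurable.comp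
        (measurable_snd : Measurable (fun p : ℝ × ℝ => p.2))
      exact h
    · exact ((sm_uh Pr hB hRep hgi hgo l).norm.pow_const 2)
  · rw [ae_restrict_iff' measurableSet_Ico]
    refine Filter.Eventually.of_forall fun t ht => ?_
    have hk := kk_lt (l := l) ht.1 ht.2
    have hb : ‖GG Pr l t‖ ≤ (∫ a, mu (sc m l) a) * ms (Pr.gi l (kk m l t)) ^ 2 := by
      rw [← integral_mul_const]
      unfold GG
      apply norm_integral_le_of_norm_le (h2.mul_const _)
      refine Filter.Eventually.of_forall fun a => ?_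
      rw [Real.norm_of_nonneg (mul_nonneg (h1 a) (by positivity))]
      apply mul_le_mul_of_nonneg_left _ (h1 a)
      exact pow_le_pow_left₀ (norm_nonneg _) (uh_norm_le (hgi l _) a t) 2
    refine hb.trans ?_
    apply Finset.single_le_sum (f := fun k => (∫ a, mu (sc m l) a) * ms (Pr.gi l k) ^ 2)
    · intro k _; positivity
    · rw [Finset.mem_range]; exact hk

/-- the inner integral in `StMax` -/
lemma inner_eq (hEnF : StEnF) {l : ℕ} (hl : l < N) {t : ℝ} (h0 : 0 ≤ t) (h1 : t < 4 ^ m) (x : ℝ) :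
    (∫ a, ((kh B (sc m (l + 1)) a - kh B (2 * sc m (l + 1)) a : ℝ) : ℂ) *
      uh (Pr.gi (l + 1) (kk m (l + 1) t)) (Pr.gi (l + 1) (kk m (l + 1) t)) a t * ex (x * a)).re
    = XX Pr (l + 1) x t - XX Pr l x t := by
  have hs := sc_pos m (l + 1)
  obtain ⟨i1, e1⟩ := hEnF B (sc m (l + 1)) (by linarith) hs _ (hgi (l + 1) (kk m (l + 1) t)) x t
  obtain ⟨i2, e2⟩ := hEnF B (2 * sc m (l + 1)) (by linarith) (by linarith) _
    (hgi (l + 1) (kk m (l + 1) t)) x t
  have hmul : ∀ f : ℝ → ℂ, Integrable f → Integrable (fun a => f a * ex (x * a)) := by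
    intro f hf
    refine hf.mul_bdd (c := 1) ?_ (Filter.Eventually.of_forall fun a => (ex_norm _).le)
    exact (ex_cont.comp (by fun_prop : Continuous fun a : ℝ => x * a)).aestronglyMeasurable
  have e3 : (∫ a, ((kh B (sc m (l + 1)) a - kh B (2 * sc m (l + 1)) a : ℝ) : ℂ) *
      uh (Pr.gi (l + 1) (kk m (l + 1) t)) (Pr.gi (l + 1) (kk m (l + 1) t)) a t * ex (x * a)) =
      (En B (sc m (l + 1)) x t (Pr.gi (l + 1) (kk m (l + 1) t)) : ℂ) -
      (En B (2 * sc m (l + 1)) x t (Pr.gi (l + 1) (kk m (l + 1) t)) : ℂ) := by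
    rw [e1, e2, ← integral_sub (hmul _ i1) (hmul _ i2)]
    congr 1
    funext a
    push_cast
    ring
  rw [e3, XX_step Pr hl h0 h1 x, ← Complex.ofReal_sub, Complex.ofReal_re]

/-- the maximal inequality at a fixed time -/
lemma max_pt (hEnF : StEnF) {CM : ℝ}
    (hMax : MaxP B CM)
    (hN : 1 ≤ N) {lam : ℝ} (hlam : 0 < lam)
    {t : ℝ} (h0 : 0 ≤ t) (h1 : t < 4 ^ m) (act : Finset (ℕ × ℤ × ℤ))
    (hact : ∀ p ∈ act, 1 ≤ p.1 ∧ p.1 ≤ N)
    (hdisj : (act : Set (ℕ × ℤ × ℤ)).PairwiseDisjoint (fun p => II m p.1 p.2.1)) :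
    ∑ p ∈ act, ((∫ x in II m p.1 p.2.1, XX Pr p.1 x t) - ∫ x in II m p.1 p.2.1, XX Pr 0 x t)
      ≤ lam / 4 * ∑ p ∈ act, sc m p.1 + CM / lam * ∑ j ∈ Finset.range N, GG Pr (j + 1) t := by
  classical
  let A : ℕ → Set ℝ := fun i => ⋃ p ∈ act.filter (fun p => N - i ≤ p.1), II m p.1 p.2.1
  have hAm : ∀ i, MeasurableSet (A i) := fun i =>
    Finset.measurableSet_biUnion _ fun p _ => meas_II _ _ _
  have hdi : ∀ i, ((act.filter (fun p => N - i ≤ p.1) : Finset (ℕ × ℤ × ℤ)) :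
      Set (ℕ × ℤ × ℤ)).PairwiseDisjoint (fun p => II m p.1 p.2.1) := fun i =>
    hdisj.subset (by
      intro p hp
      simp only [Finset.coe_filter, mem_setOf_eq] at hp
      exact hp.1)
  have hAmono : ∀ i, A i ⊆ A (i + 1) := by
    intro i
    apply biUnion_subset_biUnion_left
    intro p hp
    rw [Finset.mem_coe, Finset.mem_filter] at hp ⊢
    exact ⟨hp.1, by omega⟩
  have hAint : ∀ i (f : ℝ → ℝ), (∀ p ∈ act, IntegrableOn f (II m p.1 p.2.1)) →
      ∫ x in A i, f x = ∑ p ∈ act.filter (fun p => N - i ≤ p.1), ∫ x in II m p.1 p.2.1, f x := by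
    intro i f hf
    show ∫ x in ⋃ p ∈ act.filter (fun p => N - i ≤ p.1), II m p.1 p.2.1, f x = _
    rw [integral_biUnion_finset _ (fun p _ => meas_II _ _ _) (hdi i)]
    intro p hp
    rw [Finset.mem_filter] at hp
    exact hf p hp.1
  have hvol : ∀ i, volume (A i) ≤ ∑ p ∈ act, ENNReal.ofReal (sc m p.1) := by
    intro i
    refine (measure_biUnion_finset_le _ _).trans ?_
    simp only [vol_II]
    exact Finset.sum_le_sum_of_subset (Finset.filter_subset _ _)
  have hsum_top : ∑ p ∈ act, ENNReal.ofReal (sc m p.1) < ⊤ :=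
    ENNReal.sum_lt_top.mpr fun p _ => ENNReal.ofReal_lt_top
  have hvolr : ∀ i, (volume (A i)).toReal ≤ ∑ p ∈ act, sc m p.1 := by
    intro i
    refine (ENNReal.toReal_mono hsum_top.ne (hvol i)).trans ?_
    rw [ENNReal.toReal_sum (fun p _ => ENNReal.ofReal_ne_top)]
    apply Finset.sum_le_sum
    intro p _
    rw [ENNReal.toReal_ofReal (sc_pos _ _).le]
  -- scales
  have hsN := sc_pos m N
  have hspos : ∀ i : ℕ, 0 < 2 ^ i * sc m N := fun i => by positivity
  have hM := hMax (N - 1) (fun i => 2 ^ i * sc m N) hspos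
    (fun i => by simp only [pow_succ]; ring) A hAm hAmono ((hvol _).trans_lt hsum_top)
    (fun i a => uh (Pr.gi (N - i) (kk m (N - i) t)) (Pr.gi (N - i) (kk m (N - i) t)) a t)
    (by
      intro i
      have h := (uh_meas (hgi (N - i) (kk m (N - i) t))).comp
        (f := fun a : ℝ => (a, t)) (by fun_prop)
      exact h)
    (by
      intro i
      exact int_UU Pr hB hRep hgi hgo (hspos i) _ _ _)
    (by
      intro i
      have hs := hspos i
      have i1 := (hEnF B (2 ^ i * sc m N) (by linarith) hs _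
        (hgi (N - i) (kk m (N - i) t)) 0 t).1
      have i2 := (hEnF B (2 * (2 ^ i * sc m N)) (by linarith) (by linarith) _
        (hgi (N - i) (kk m (N - i) t)) 0 t).1
      refine (i1.sub i2).congr (Filter.Eventually.of_forall fun a => ?_)
      simp only [Pi.sub_apply]
      push_cast
      ring)
    lam hlam
  have hN1 : N - 1 + 1 = N := by omega
  rw [hN1] at hM
  -- left side
  have hL : ∑ i ∈ Finset.range N, (∫ x in A i,
      (∫ a, ((kh B (2 ^ i * sc m N) a - kh B (2 * (2 ^ i * sc m N)) a : ℝ) : ℂ) *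
        uh (Pr.gi (N - i) (kk m (N - i) t)) (Pr.gi (N - i) (kk m (N - i) t)) a t *
          ex (x * a)).re) =
      ∑ p ∈ act, ((∫ x in II m p.1 p.2.1, XX Pr p.1 x t) - ∫ x in II m p.1 p.2.1, XX Pr 0 x t) := by
    have e1 : ∀ i ∈ Finset.range N, (∫ x in A i,
      (∫ a, ((kh B (2 ^ i * sc m N) a - kh B (2 * (2 ^ i * sc m N)) a : ℝ) : ℂ) *
        uh (Pr.gi (N - i) (kk m (N - i) t)) (Pr.gi (N - i) (kk m (N - i) t)) a t *
          ex (x * a)).re) =
        ∑ p ∈ act, if N - 1 - i + 1 ≤ p.1 then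
          ((∫ x in II m p.1 p.2.1, XX Pr (N - 1 - i + 1) x t) -
            ∫ x in II m p.1 p.2.1, XX Pr (N - 1 - i) x t) else 0 := by
      intro i hi
      rw [Finset.mem_range] at hi
      have e2 : N - i = N - 1 - i + 1 := by omega
      have e3 : ∀ x, (∫ a, ((kh B (2 ^ i * sc m N) a - kh B (2 * (2 ^ i * sc m N)) a : ℝ) : ℂ) *
        uh (Pr.gi (N - i) (kk m (N - i) t)) (Pr.gi (N - i) (kk m (N - i) t)) a t *
          ex (x * a)).re = XX Pr (N - 1 - i + 1) x t - XX Pr (N - 1 - i) x t := by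
        intro x
        rw [sc_mul m hi.le, e2]
        exact inner_eq Pr hB hRep hgi hgo hEnF (by omega) h0 h1 x
      simp only [e3]
      rw [hAint, ← e2, Finset.sum_filter]
      · apply Finset.sum_congr rfl
        intro p _
        split_ifs
        · rw [integral_sub (int_x Pr hB hRep hgi hgo (by omega) h0 h1 _ _)
            (int_x Pr hB hRep hgi hgo (by omega) h0 h1 _ _)]
        · rfl
      · intro p _
        exact (int_x Pr hB hRep hgi hgo (by omega) h0 h1 _ _).sub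
          (int_x Pr hB hRep hgi hgo (by omega) h0 h1 _ _)
    rw [Finset.sum_congr rfl e1, Finset.sum_range_reflect (fun j => ∑ p ∈ act, if j + 1 ≤ p.1 then
          ((∫ x in II m p.1 p.2.1, XX Pr (j + 1) x t) -
            ∫ x in II m p.1 p.2.1, XX Pr j x t) else 0) N, Finset.sum_comm]
    apply Finset.sum_congr rfl
    intro p hp
    obtain ⟨hp1, hp2⟩ := hact p hp
    rw [← Finset.sum_filter]
    have e4 : (Finset.range N).filter (fun j => j + 1 ≤ p.1) = Finset.range p.1 := by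
      ext j
      simp only [Finset.mem_filter, Finset.mem_range]
      omega
    rw [e4, Finset.sum_range_sub (fun j => ∫ x in II m p.1 p.2.1, XX Pr j x t)]
  have hR : ∑ i ∈ Finset.range N, ∫ a, mu (2 ^ i * sc m N) a *
      ‖uh (Pr.gi (N - i) (kk m (N - i) t)) (Pr.gi (N - i) (kk m (N - i) t)) a t‖ ^ 2 =
      ∑ j ∈ Finset.range N, GG Pr (j + 1) t := by
    rw [← Finset.sum_range_reflect (fun j => GG Pr (j + 1) t) N]
    apply Finset.sum_congr rfl
    intro i hi
    rw [Finset.mem_range] at hi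
    have e2 : N - i = N - 1 - i + 1 := by omega
    rw [sc_mul m hi.le, e2]
    rfl
  rw [hL, hR] at hM
  refine hM.trans ?_
  have := hvolr (N - 1)
  have h5 := mul_le_mul_of_nonneg_left this (by positivity : 0 ≤ lam / 4)
  linarith

end

end Vale.Agent.P076.H629
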