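import Vale.Agent.P076.H629.XBase

/-! # P076, X.STOP: the process, the functions `X_l` -/

set_option linter.all false

open MeasureTheory Set

namespace Vale.Agent.P076.H629

open Vale.Agent.P076.X

/-! ### scales -/

lemma sc_pos (m l : ℕ) : 0 < sc m l := by unfold sc; positivity

lemma sc_succ (m l : ℕ) : sc m l = 2 * sc m (l + 1) := by
  unfold sc; rw [pow_succ]; field_simp

lemma sc_zero (m : ℕ) : sc m 0 = 2 ^ m := by unfold sc; simp

lemma sc_top (m : ℕ) : sc m m = 1 := by unfold sc; field_simp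

lemma sc_anti (m : ℕ) {i l : ℕ} (h : i ≤ l) : sc m l ≤ sc m i := by
  induction h with
  | refl => exact le_rfl
  | @step k hk ih =>
    have := sc_succ m k
    have h2 := sc_pos m (k + 1)
    show sc m (k + 1) ≤ sc m i
    linarith

lemma sc_ge_one {m l : ℕ} (h : l ≤ m) : 1 ≤ sc m l := by
  have := sc_anti m h
  rwa [sc_top] at this

lemma sc_sq (m l : ℕ) : sc m l ^ 2 * 4 ^ l = 4 ^ m := by
  unfold sc
  have h : ∀ n : ℕ, (4:ℝ) ^ n = (2 ^ n) ^ 2 := by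
    intro n; rw [← pow_mul, mul_comm, pow_mul]; norm_num
  rw [h, h]; field_simp

lemma sc_mul (m : ℕ) {N i : ℕ} (h : i ≤ N) : 2 ^ i * sc m N = sc m (N - i) := by
  unfold sc
  have e : (2:ℝ) ^ N = 2 ^ i * 2 ^ (N - i) := by rw [← pow_add]; congr 1; omega
  rw [e]; field_simp

/-- index of the time interval of level `l` containing `t` -/
noncomputable def kk (m l : ℕ) (t : ℝ) : ℕ := ⌊t / sc m l ^ 2⌋₊

lemma kk_lt {m l : ℕ} {t : ℝ} (h0 : 0 ≤ t) (h1 : t < 4 ^ m) : kk m l t < 4 ^ l := by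
  have hs := sc_pos m l
  unfold kk
  rw [Nat.floor_lt (by positivity), div_lt_iff₀ (by positivity)]
  push_cast
  rw [mul_comm, sc_sq]
  exact h1

lemma kk_zero {m : ℕ} {t : ℝ} (h0 : 0 ≤ t) (h1 : t < 4 ^ m) : kk m 0 t = 0 := by
  have := kk_lt (l := 0) h0 h1
  simpa using this

lemma kk_div (m l : ℕ) (t : ℝ) : kk m (l + 1) t / 4 = kk m l t := by
  unfold kk
  have e : t / sc m l ^ 2 = (t / sc m (l + 1) ^ 2) / ((4 : ℕ) : ℝ) := by
    rw [sc_succ m l]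
    have := sc_pos m (l + 1)
    push_cast
    field_simp
    norm_num
  rw [e, Nat.floor_div_natCast]

lemma kk_mem {m l : ℕ} {t : ℝ} (h0 : 0 ≤ t) :
    (kk m l t : ℝ) * sc m l ^ 2 ≤ t ∧ t < ((kk m l t : ℝ) + 1) * sc m l ^ 2 := by
  have hs := sc_pos m l
  have hs2 : 0 < sc m l ^ 2 := by positivity
  unfold kk
  constructor
  · rw [← le_div_iff₀ hs2]
    exact Nat.floor_le (by positivity)
  · rw [← div_lt_iff₀ hs2]
    exact Nat.lt_floor_add_one _

lemma kk_eq {m l : ℕ} {t : ℝ} {k : ℕ} (h0 : (k : ℝ) * sc m l ^ 2 ≤ t)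
    (h1 : t < ((k : ℝ) + 1) * sc m l ^ 2) : kk m l t = k := by
  have hs := sc_pos m l
  have hs2 : 0 < sc m l ^ 2 := by positivity
  unfold kk
  rw [Nat.floor_eq_iff (by
    apply div_nonneg _ hs2.le
    exact le_trans (by positivity) h0)]
  exact ⟨by rwa [le_div_iff₀ hs2], by rwa [div_lt_iff₀ hs2]⟩

lemma ct_near {m l : ℕ} {t : ℝ} (h0 : 0 ≤ t) : |t - ct m l (kk m l t)| ≤ sc m l ^ 2 := by
  obtain ⟨h1, h2⟩ := kk_mem (m := m) (l := l) h0
  unfold ct
  rw [abs_le]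
  constructor <;> nlinarith

lemma kk_meas (m l : ℕ) : Measurable (kk m l) := by
  unfold kk
  exact Nat.measurable_floor.comp (by fun_prop)

/-! ### existence of the process -/

lemma proc_exists {B b C₀ C₁ : ℝ} (m N : ℕ)
    (H : ∀ s t₀ : ℝ, 0 < s → ∀ g : ℝ → ℂ, Good g →
      ∃ (g' : ℝ → ℂ) (n : ℕ) (c : ℕ → ℂ) (y η : ℕ → ℝ), Pruned B b C₀ C₁ s t₀ g g' n c y η)
    (g : ℝ → ℂ) (hg : Good g) :
    ∃ Pr : Proc B b C₀ C₁ m N g, (∀ l k, Good (Pr.gi l k)) ∧ (∀ l k, Good (Pr.go l k)) := by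
  classical
  have H' : ∀ s t₀ : ℝ, ∀ g : ℝ → ℂ,
      ∃ (g' : ℝ → ℂ) (n : ℕ) (c : ℕ → ℂ) (y η : ℕ → ℝ), 0 < s → Good g →
        Pruned B b C₀ C₁ s t₀ g g' n c y η := by
    intro s t₀ g
    by_cases h : 0 < s ∧ Good g
    · obtain ⟨g', n, c, y, η, h'⟩ := H s t₀ h.1 g h.2
      exact ⟨g', n, c, y, η, fun _ _ => h'⟩
    · refine ⟨g, 0, 0, 0, 0, fun h1 h2 => absurd ⟨h1, h2⟩ h⟩
  choose go n c y η hP using H'
  let G : ℕ → ℕ → ℝ → ℂ := fun l => Nat.rec (fun _ => g)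
    (fun l Gl k => go (sc m l) (ct m l (k / 4)) (Gl (k / 4))) l
  have hG0 : ∀ k, G 0 k = g := fun _ => rfl
  have hGs : ∀ l k, G (l + 1) k = go (sc m l) (ct m l (k / 4)) (G l (k / 4)) := fun _ _ => rfl
  have hgood : ∀ l k, Good (G l k) := by
    intro l
    induction l with
    | zero => intro k; rw [hG0]; exact hg
    | succ l ih =>
      intro k
      rw [hGs]
      exact (hP _ _ _ (sc_pos m l) (ih _)).good'
  refine ⟨⟨G, fun l k => go (sc m l) (ct m l k) (G l k), fun l k => n (sc m l) (ct m l k) (G l k),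
    fun l k => c (sc m l) (ct m l k) (G l k), fun l k => y (sc m l) (ct m l k) (G l k),
    fun l k => η (sc m l) (ct m l k) (G l k), rfl, ?_, ?_⟩, hgood, ?_⟩
  · intro l _ k _
    exact hGs l k
  · intro l _ k _
    exact hP _ _ _ (sc_pos m l) (hgood l k)
  · intro l k
    exact (hP _ _ _ (sc_pos m l) (hgood l k)).good'

/-! ### the functions `X_l` -/

section

variable {B b C₀ C₁ : ℝ} {m N : ℕ} {g : ℝ → ℂ} (Pr : Proc B b C₀ C₁ m N g)

noncomputable def ein (l : ℕ) (x t : ℝ) : ℝ := En B (sc m l) x t (Pr.gi l (kk m l t))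
noncomputable def eout (l : ℕ) (x t : ℝ) : ℝ := En B (sc m l) x t (Pr.go l (kk m l t))
noncomputable def dd (l : ℕ) (x t : ℝ) : ℝ := ein Pr l x t - eout Pr l x t
noncomputable def XX (l : ℕ) (x t : ℝ) : ℝ :=
  eout Pr l x t + ∑ i ∈ Finset.range (l + 1), dd Pr i x t

lemma gi_succ {l : ℕ} (hl : l < N) {t : ℝ} (h0 : 0 ≤ t) (h1 : t < 4 ^ m) :
    Pr.gi (l + 1) (kk m (l + 1) t) = Pr.go l (kk m l t) := by
  rw [Pr.step l hl _ (kk_lt h0 h1), kk_div]

lemma XX_zero {t : ℝ} (h0 : 0 ≤ t) (h1 : t < 4 ^ m) (x : ℝ) :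
    XX Pr 0 x t = En B (sc m 0) x t g := by
  unfold XX dd ein
  rw [Finset.sum_range_one, kk_zero h0 h1, Pr.top]
  ring

lemma XX_step {l : ℕ} (hl : l < N) {t : ℝ} (h0 : 0 ≤ t) (h1 : t < 4 ^ m) (x : ℝ) :
    XX Pr (l + 1) x t - XX Pr l x t =
      En B (sc m (l + 1)) x t (Pr.gi (l + 1) (kk m (l + 1) t)) -
      En B (2 * sc m (l + 1)) x t (Pr.gi (l + 1) (kk m (l + 1) t)) := by
  unfold XX
  rw [Finset.sum_range_succ _ (l + 1)]
  have e1 : eout Pr l x t = En B (2 * sc m (l + 1)) x t (Pr.gi (l + 1) (kk m (l + 1) t)) := by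
    unfold eout
    rw [gi_succ Pr hl h0 h1, ← sc_succ]
  have e2 : dd Pr (l + 1) x t = En B (sc m (l + 1)) x t (Pr.gi (l + 1) (kk m (l + 1) t)) -
      eout Pr (l + 1) x t := rfl
  rw [e2, e1]
  ring

lemma dd_lo {l : ℕ} (hl : l ≤ N) {t : ℝ} (h0 : 0 ≤ t) (h1 : t < 4 ^ m) (x : ℝ) :
    (1/2) * ∑ i ∈ Finset.range (Pr.n l (kk m l t)), ‖Pr.c l (kk m l t) i‖ ^ 2 *
      W (B * sc m l) (x - Pr.y l (kk m l t) i - 2 * Pr.η l (kk m l t) i *
        (t - ct m l (kk m l t))) ≤ dd Pr l x t :=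
  (Pr.prn l hl _ (kk_lt h0 h1)).lo x t (ct_near h0)

lemma dd_hi {l : ℕ} (hl : l ≤ N) {t : ℝ} (h0 : 0 ≤ t) (h1 : t < 4 ^ m) (x : ℝ) :
    dd Pr l x t ≤ (3/2) * ∑ i ∈ Finset.range (Pr.n l (kk m l t)), ‖Pr.c l (kk m l t) i‖ ^ 2 *
      W (B * sc m l) (x - Pr.y l (kk m l t) i - 2 * Pr.η l (kk m l t) i *
        (t - ct m l (kk m l t))) :=
  (Pr.prn l hl _ (kk_lt h0 h1)).hi x t (ct_near h0)

lemma dd_nonneg (hB : 1 ≤ B) {l : ℕ} (hl : l ≤ N) {t : ℝ} (h0 : 0 ≤ t) (h1 : t < 4 ^ m) (x : ℝ) :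
    0 ≤ dd Pr l x t := by
  refine le_trans ?_ (dd_lo Pr hl h0 h1 x)
  have hs := sc_pos m l
  apply mul_nonneg (by norm_num)
  apply Finset.sum_nonneg
  intro i _
  exact mul_nonneg (by positivity) (W_nonneg (by positivity) _)

lemma dd_comp (hB : 1 ≤ B) {l : ℕ} (hl : l ≤ N) {t : ℝ} (h0 : 0 ≤ t) (h1 : t < 4 ^ m) {x x' : ℝ}
    (hx : |x - x'| ≤ sc m l) : dd Pr l x t ≤ 27 * dd Pr l x' t := by
  have hs := sc_pos m l
  have hBs : sc m l ≤ B * sc m l := by nlinarith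
  have h2 := dd_hi Pr hl h0 h1 x
  have h3 := dd_lo Pr hl h0 h1 x'
  have h4 : ∑ i ∈ Finset.range (Pr.n l (kk m l t)), ‖Pr.c l (kk m l t) i‖ ^ 2 *
      W (B * sc m l) (x - Pr.y l (kk m l t) i - 2 * Pr.η l (kk m l t) i *
        (t - ct m l (kk m l t))) ≤
      9 * ∑ i ∈ Finset.range (Pr.n l (kk m l t)), ‖Pr.c l (kk m l t) i‖ ^ 2 *
      W (B * sc m l) (x' - Pr.y l (kk m l t) i - 2 * Pr.η l (kk m l t) i *
        (t - ct m l (kk m l t))) := by
    rw [Finset.mul_sum]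
    apply Finset.sum_le_sum
    intro i _
    have : W (B * sc m l) (x - Pr.y l (kk m l t) i - 2 * Pr.η l (kk m l t) i *
        (t - ct m l (kk m l t))) ≤ 9 * W (B * sc m l) (x' - Pr.y l (kk m l t) i -
        2 * Pr.η l (kk m l t) i * (t - ct m l (kk m l t))) := by
      apply W_comp (by positivity)
      have e : x - Pr.y l (kk m l t) i - 2 * Pr.η l (kk m l t) i * (t - ct m l (kk m l t)) -
        (x' - Pr.y l (kk m l t) i - 2 * Pr.η l (kk m l t) i * (t - ct m l (kk m l t))) = x - x' := by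
        ring
      rw [e]
      exact hx.trans hBs
    calc _ ≤ ‖Pr.c l (kk m l t) i‖ ^ 2 * (9 * W (B * sc m l) (x' - Pr.y l (kk m l t) i -
        2 * Pr.η l (kk m l t) i * (t - ct m l (kk m l t)))) :=
          mul_le_mul_of_nonneg_left this (by positivity)
      _ = _ := by ring
  linarith

variable (hB : 1 ≤ B) (hRep : StRep) (hgi : ∀ l k, Good (Pr.gi l k)) (hgo : ∀ l k, Good (Pr.go l k))

include hB hRep hgi hgo

lemma XX_nonneg {l : ℕ} (hl : l ≤ N) {t : ℝ} (h0 : 0 ≤ t) (h1 : t < 4 ^ m) (x : ℝ) :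
    0 ≤ XX Pr l x t := by
  unfold XX
  apply add_nonneg
  · exact En_nonneg (by linarith) (sc_pos m l) _ _ _
  · apply Finset.sum_nonneg
    intro i hi
    rw [Finset.mem_range] at hi
    exact dd_nonneg Pr hB (by omega) h0 h1 x

lemma eout_le_XX {l : ℕ} (hl : l ≤ N) {t : ℝ} (h0 : 0 ≤ t) (h1 : t < 4 ^ m) (x : ℝ) :
    eout Pr l x t ≤ XX Pr l x t := by
  unfold XX
  have : 0 ≤ ∑ i ∈ Finset.range (l + 1), dd Pr i x t := by
    apply Finset.sum_nonneg
    intro i hi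
    rw [Finset.mem_range] at hi
    exact dd_nonneg Pr hB (by omega) h0 h1 x
  linarith

lemma sum_dd_le_XX {l : ℕ} (hl : l ≤ N) {t : ℝ} (x : ℝ) :
    ∑ i ∈ Finset.range (l + 1), dd Pr i x t ≤ XX Pr l x t := by
  unfold XX
  have : 0 ≤ eout Pr l x t := En_nonneg (by linarith) (sc_pos m l) _ _ _
  linarith

lemma XX_comp {l : ℕ} (hl : l ≤ N) {t : ℝ} (h0 : 0 ≤ t) (h1 : t < 4 ^ m) {x x' : ℝ}
    (hx : |x - x'| ≤ sc m l) : XX Pr l x t ≤ 27 * XX Pr l x' t := by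
  unfold XX
  rw [mul_add]
  have hs := sc_pos m l
  have hBs : sc m l ≤ B * sc m l := by nlinarith
  apply add_le_add
  · have h2 := En_comp hRep (by linarith) (sc_pos m l) t (hgo l (kk m l t)) (hx.trans hBs)
    have h3 : 0 ≤ En B (sc m l) x' t (Pr.go l (kk m l t)) := En_nonneg (by linarith) hs _ _ _
    unfold eout
    linarith
  · rw [Finset.mul_sum]
    apply Finset.sum_le_sum
    intro i hi
    rw [Finset.mem_range] at hi
    exact dd_comp Pr hB (by omega) h0 h1 (hx.trans (sc_anti m (by omega)))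

lemma meas_gen (l : ℕ) (G : ℕ → ℝ → ℂ) (hG : ∀ k, Good (G k)) (r : ℝ) :
    Measurable (fun p : ℝ × ℝ => En B r p.1 p.2 (G (kk m l p.2))) := by
  have h1 : Measurable (fun q : ℕ × (ℝ × ℝ) => En B r q.2.1 q.2.2 (G q.1)) := by
    apply measurable_from_prod_countable_right
    intro k
    have h := En_meas B r (hG k).1
    exact h
  have h2 : Measurable (fun p : ℝ × ℝ => ((kk m l p.2, p) : ℕ × (ℝ × ℝ))) :=
    ((kk_meas m l).comp measurable_snd).prodMk measurable_id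
  have h3 := h1.comp h2
  exact h3

lemma XX_meas (l : ℕ) : Measurable (fun p : ℝ × ℝ => XX Pr l p.1 p.2) := by
  unfold XX dd ein eout
  apply Measurable.add
  · exact meas_gen Pr hB hRep hgi hgo l (Pr.go l) (hgo l) _
  · apply Finset.measurable_sum
    intro i _
    exact (meas_gen Pr hB hRep hgi hgo i (Pr.gi i) (hgi i) _).sub
      (meas_gen Pr hB hRep hgi hgo i (Pr.go i) (hgo i) _)

/-- `X_l` is bounded -/
lemma XX_bdd {l : ℕ} (hl : l ≤ N) : ∃ M : ℝ, ∀ t : ℝ, 0 ≤ t → t < 4 ^ m → ∀ x,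
    |XX Pr l x t| ≤ M := by
  have key : ∀ (i : ℕ) (G : ℕ → ℝ → ℂ), (∀ k, Good (G k)) → ∃ M : ℝ, 0 ≤ M ∧
      ∀ t : ℝ, 0 ≤ t → t < 4 ^ m → ∀ x, |En B (sc m i) x t (G (kk m i t))| ≤ M := by
    intro i G hG
    refine ⟨∑ k ∈ Finset.range (4 ^ i), 2 / (Real.pi * (B * sc m i)) * ms (G k), ?_, ?_⟩
    · apply Finset.sum_nonneg
      intro k _
      have := sc_pos m i
      have := ms_nonneg (G k)
      positivity
    · intro t h0 h1 x
      rw [abs_of_nonneg (En_nonneg (by linarith) (sc_pos m i) _ _ _)]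
      refine (En_le hRep (by linarith) (sc_pos m i) x t (hG _)).trans ?_
      apply Finset.single_le_sum (f := fun k => 2 / (Real.pi * (B * sc m i)) * ms (G k))
      · intro k _
        have := sc_pos m i
        have := ms_nonneg (G k)
        positivity
      · rw [Finset.mem_range]
        exact kk_lt h0 h1
  choose! M hM0 hM using key
  refine ⟨M l (Pr.go l) + ∑ i ∈ Finset.range (l + 1), (M i (Pr.gi i) + M i (Pr.go i)), ?_⟩
  intro t h0 h1 x
  unfold XX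
  refine (abs_add_le _ _).trans ?_
  apply add_le_add
  · exact hM l _ (hgo l) t h0 h1 x
  · refine (Finset.abs_sum_le_sum_abs _ _).trans ?_
    apply Finset.sum_le_sum
    intro i _
    unfold dd
    refine (abs_sub _ _).trans ?_
    exact add_le_add (hM i _ (hgi i) t h0 h1 x) (hM i _ (hgo i) t h0 h1 x)

end

end Vale.Agent.P076.H629
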