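import Vale.Agent.P076.H629.XInt

/-! # P076, X.STOP: stopping time, count, `StX2` -/

set_option linter.all false

open MeasureTheory Set

namespace Vale.Agent.P076.H629

open Vale.Agent.P076.X

/-- the body of `StKer` -/
def KerP (B : ℝ) (ψ : ℝ → ℝ) (C : ℝ) : Prop :=
  ∀ s : ℝ, 1 ≤ s → ∀ y η t₀ t t' x : ℝ, |t - t₀| ≤ s ^ 2 → |t' - t| ≤ 4 * s →
  ‖sol (fun ξ => ψ ξ * pk s y η t₀ ξ) x t'‖ ≤ C * Real.sqrt s * W (B * s) (x - y - 2 * η * (t - t₀))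

lemma KerP_mono {B : ℝ} (hB : 1 ≤ B) {ψ : ℝ → ℝ} {C C' : ℝ} (hC : C ≤ C') (h : KerP B ψ C) :
    KerP B ψ C' := by
  intro s hs y η t₀ t t' x h1 h2
  refine (h s hs y η t₀ t t' x h1 h2).trans ?_
  apply mul_le_mul_of_nonneg_right _ (W_nonneg (by positivity) _)
  exact mul_le_mul_of_nonneg_right hC (Real.sqrt_nonneg _)

/-- the body of `StCount2` -/
def CountP (B : ℝ) (ψ₁ ψ₂ : ℝ → ℝ) (C : ℝ) : Prop :=
  ∀ s : ℝ, 1 ≤ s → ∀ x₀ t₁ Y₁ Y₂ α : ℝ, 0 < Y₁ → 0 < Y₂ → 0 < α → C * Y₁ ≤ α ^ 2 → C * Y₂ ≤ α ^ 2 →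
  ∀ h₁ h₂ : ℝ → ℂ, Good h₁ → Good h₂ →
  En B s x₀ t₁ h₁ ≤ Y₁ → En B s x₀ t₁ h₂ ≤ Y₂ → ∀ E : Finset (ℝ × ℝ),
  (∀ z ∈ E, ∀ z' ∈ E, z ≠ z' → 1 ≤ |z.1 - z'.1| ∨ 1 ≤ |z.2 - z'.2|) →
  (∀ z ∈ E, |z.1 - x₀| ≤ 4 * s ∧ |z.2 - t₁| ≤ 4 * s ∧
    α ≤ ‖sol (fun ξ => ψ₁ ξ * h₁ ξ) z.1 z.2‖ ∧ α ≤ ‖sol (fun ξ => ψ₂ ξ * h₂ ξ) z.1 z.2‖) →
  α ^ 4 * E.card ≤ C * s ^ 2 * (Y₁ * Y₂)

/-- the dyadic square of level `l` containing `z` -/
noncomputable def fl (m l : ℕ) (z : ℝ × ℝ) : ℤ × ℤ := (⌊z.1 / sc m l⌋, ⌊z.2 / sc m l⌋)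

lemma fl_mem1 (m l : ℕ) (z : ℝ × ℝ) : z.1 ∈ II m l (fl m l z).1 := mem_II.mpr rfl
lemma fl_mem2 (m l : ℕ) (z : ℝ × ℝ) : z.2 ∈ II m l (fl m l z).2 := mem_II.mpr rfl

lemma fl_eq {m i l : ℕ} (hil : i ≤ l) {z z' : ℝ × ℝ} (h : fl m l z = fl m l z') :
    fl m i z = fl m i z' := by
  unfold fl at h ⊢
  rw [Prod.mk.injEq] at h ⊢
  exact ⟨fl_anti' hil h.1, fl_anti' hil h.2⟩

lemma fl_of_mem {m l : ℕ} {q : ℤ × ℤ} {x t : ℝ} (hx : x ∈ II m l q.1) (ht : t ∈ II m l q.2) :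
    fl m l (x, t) = q := by
  rw [mem_II] at hx ht
  unfold fl
  rw [hx, ht]

/-- a large value of `X_l` at one point makes the slice integral large -/
lemma slice_large {B b C₀ C₁ : ℝ} {m N : ℕ} {g : ℝ → ℂ} (Pr : Proc B b C₀ C₁ m N g)
    (hB : 1 ≤ B) (hRep : StRep)
    (hgi : ∀ l k, Good (Pr.gi l k)) (hgo : ∀ l k, Good (Pr.go l k))
    {l : ℕ} (hl : l ≤ N) {lam : ℝ} (hlam : 0 < lam) {i : ℤ} {t : ℝ} (h0 : 0 ≤ t) (h1 : t < 4 ^ m)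
    {x' : ℝ} (hx' : x' ∈ II m l i) (h4 : 54 * lam < XX Pr l x' t) :
    2 * sc m l ≤ lam⁻¹ * ∫ x in II m l i, XX Pr l x t := by
  have h3 : ∀ x ∈ II m l i, 2 * lam ≤ XX Pr l x t := by
    intro x hx
    have h5 := XX_comp Pr hB hRep hgi hgo hl h0 h1 (II_near hx' hx)
    linarith
  have h6 : 2 * lam * sc m l ≤ ∫ x in II m l i, XX Pr l x t := by
    have e' : 2 * lam * sc m l = ∫ x in II m l i, 2 * lam := by
      rw [setIntegral_const, volr_II, smul_eq_mul]; ring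
    rw [e']
    have hc : IntegrableOn (fun _ : ℝ => 2 * lam) (II m l i) :=
      integrableOn_const (by rw [vol_II]; exact ENNReal.ofReal_ne_top)
    exact setIntegral_mono_on hc (int_x Pr hB hRep hgi hgo hl h0 h1 l i) (meas_II _ _ _) h3
  rw [le_inv_mul_iff₀ hlam]; linarith

lemma slice_nonneg {B b C₀ C₁ : ℝ} {m N : ℕ} {g : ℝ → ℂ} (Pr : Proc B b C₀ C₁ m N g)
    (hB : 1 ≤ B) (hRep : StRep)
    (hgi : ∀ l k, Good (Pr.gi l k)) (hgo : ∀ l k, Good (Pr.go l k))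
    {l : ℕ} (hl : l ≤ N) {lam : ℝ} (hlam : 0 < lam) {i : ℤ} {t : ℝ} (h0 : 0 ≤ t)
    (h1 : t < 4 ^ m) : 0 ≤ lam⁻¹ * ∫ x in II m l i, XX Pr l x t := by
  have : 0 ≤ ∫ x in II m l i, XX Pr l x t :=
    integral_nonneg fun x => XX_nonneg Pr hB hRep hgi hgo hl h0 h1 x
  positivity

/-- common good time of two processes -/
lemma good_time2 {B b₁ b₂ C₀ C₁ : ℝ} {m N : ℕ} {g₁ g₂ : ℝ → ℂ}
    (P1 : Proc B b₁ C₀ C₁ m N g₁) (P2 : Proc B b₂ C₀ C₁ m N g₂) (hB : 1 ≤ B) (hRep : StRep)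
    (hgi1 : ∀ l k, Good (P1.gi l k)) (hgo1 : ∀ l k, Good (P1.go l k))
    (hgi2 : ∀ l k, Good (P2.gi l k)) (hgo2 : ∀ l k, Good (P2.go l k))
    {l : ℕ} (hl : l ≤ N) {lam₁ lam₂ : ℝ} (hlam₁ : 0 < lam₁) (hlam₂ : 0 < lam₂) {q : ℤ × ℤ}
    (hq : II m l q.2 ⊆ Ico 0 (4 ^ m)) (h1 : avg P1 l q < lam₁ * sc m l ^ 2)
    (h2 : avg P2 l q < lam₂ * sc m l ^ 2) :
    ∃ t ∈ II m l q.2, (∀ x ∈ II m l q.1, XX P1 l x t ≤ 54 * lam₁) ∧
      ∀ x ∈ II m l q.1, XX P2 l x t ≤ 54 * lam₂ := by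
  by_contra hc
  push Not at hc
  have hs := sc_pos m l
  have key : ∀ t ∈ II m l q.2, 2 * sc m l ≤
      lam₁⁻¹ * (∫ x in II m l q.1, XX P1 l x t) + lam₂⁻¹ * ∫ x in II m l q.1, XX P2 l x t := by
    intro t ht
    have ht' := hq ht
    have hn1 := slice_nonneg P1 hB hRep hgi1 hgo1 hl hlam₁ (i := q.1) ht'.1 ht'.2
    have hn2 := slice_nonneg P2 hB hRep hgi2 hgo2 hl hlam₂ (i := q.1) ht'.1 ht'.2
    by_cases hx : ∀ x ∈ II m l q.1, XX P1 l x t ≤ 54 * lam₁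
    · obtain ⟨x', hx', h4⟩ := hc t ht hx
      have h7 := slice_large P2 hB hRep hgi2 hgo2 hl hlam₂ ht'.1 ht'.2 hx' h4
      linarith
    · push Not at hx
      obtain ⟨x', hx', h4⟩ := hx
      have h7 := slice_large P1 hB hRep hgi1 hgo1 hl hlam₁ ht'.1 ht'.2 hx' h4
      linarith
  have hI1 : IntegrableOn (fun t => lam₁⁻¹ * ∫ x in II m l q.1, XX P1 l x t) (II m l q.2) :=
    ((int_t P1 hB hRep hgi1 hgo1 hl l q.1).mono_set hq).const_mul _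
  have hI2 : IntegrableOn (fun t => lam₂⁻¹ * ∫ x in II m l q.1, XX P2 l x t) (II m l q.2) :=
    ((int_t P2 hB hRep hgi2 hgo2 hl l q.1).mono_set hq).const_mul _
  have hc0 : IntegrableOn (fun _ : ℝ => 2 * sc m l) (II m l q.2) :=
    integrableOn_const (by rw [vol_II]; exact ENNReal.ofReal_ne_top)
  have h6 := setIntegral_mono_on hc0 (hI1.add hI2) (meas_II _ _ _) key
  rw [setIntegral_const, volr_II, smul_eq_mul] at h6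
  have e2 : ∫ t in II m l q.2, ((fun t => lam₁⁻¹ * ∫ x in II m l q.1, XX P1 l x t) +
      (fun t => lam₂⁻¹ * ∫ x in II m l q.1, XX P2 l x t)) t =
      lam₁⁻¹ * avg P1 l q + lam₂⁻¹ * avg P2 l q := by
    unfold avg
    rw [integral_add' hI1 hI2, integral_const_mul, integral_const_mul]
  rw [e2] at h6
  have h7 : lam₁⁻¹ * avg P1 l q < sc m l ^ 2 := by
    rw [inv_mul_lt_iff₀ hlam₁]; exact h1
  have h8 : lam₂⁻¹ * avg P2 l q < sc m l ^ 2 := by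
    rw [inv_mul_lt_iff₀ hlam₂]; exact h2
  nlinarith

/-- lower bound of the pruned solution at points near a good time -/
lemma lower {B b C₀ C₁ : ℝ} {m N : ℕ} {g : ℝ → ℂ} (Pr : Proc B b C₀ C₁ m N g)
    (hB : 1 ≤ B) (hb : 0 < b) (hNm : N ≤ m) (hRep : StRep)
    (hgi : ∀ l k, Good (Pr.gi l k)) (hgo : ∀ l k, Good (Pr.go l k))
    {ψ : ℝ → ℝ} (hψ : Bump ψ) {CK : ℝ} (hCK : 0 < CK) (hK : KerP B ψ CK) {lam α : ℝ}
    (hα : 2 * CK / b * (54 * lam) ≤ α / 2) {l : ℕ} (hl : l ≤ N) {t₁ : ℝ} (h0 : 0 ≤ t₁)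
    (h1 : t₁ < 4 ^ m) {z : ℝ × ℝ} (hX : XX Pr l z.1 t₁ ≤ 54 * lam) (hz : |z.2 - t₁| ≤ sc m l)
    (hz2 : α ≤ ‖sol (fun ξ => ψ ξ * g ξ) z.1 z.2‖) :
    α / 2 ≤ ‖sol (fun ξ => ψ ξ * Pr.go l (kk m l t₁) ξ) z.1 z.2‖ := by
  have hs := sc_pos m l
  have h2 := total_diff Pr hB hb hNm hψ hCK hK h0 h1 (x := z.1) (t' := z.2) l hl (by linarith)
  have h3 := sum_dd_le_XX Pr hB hRep hgi hgo hl (t := t₁) z.1
  have h4 : 2 * CK / b * ∑ i ∈ Finset.range (l + 1), dd Pr i z.1 t₁ ≤ α / 2 := by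
    refine le_trans ?_ hα
    apply mul_le_mul_of_nonneg_left (h3.trans hX) (by positivity)
  have h5 := norm_sub_norm_le (sol (fun ξ => ψ ξ * g ξ) z.1 z.2)
    (sol (fun ξ => ψ ξ * Pr.go l (kk m l t₁) ξ) z.1 z.2)
  linarith

/-- the stopping time argument -/
theorem core (hRep : StRep) (hEnF : StEnF) {B : ℝ} (hB : 1 ≤ B) {CM : ℝ} (hCM : 0 < CM)
    (hMax : MaxP B CM) {ψ₁ ψ₂ : ℝ → ℝ} (hψ₁ : Bump ψ₁) (hψ₂ : Bump ψ₂) {CK : ℝ} (hCK : 0 < CK)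
    (hK₁ : KerP B ψ₁ CK) (hK₂ : KerP B ψ₂ CK) {CC : ℝ} (hCC : 1 ≤ CC)
    (hCount : CountP B ψ₁ ψ₂ CC) {CB : ℝ} (hCB : 0 < CB)
    (hBern : ∀ s : ℝ, 1 ≤ s → ∀ x₀ t₁ x t : ℝ, |x - x₀| ≤ 4 * s → |t - t₁| ≤ 4 * s →
      ∀ h : ℝ → ℂ, Good h → ‖sol (fun ξ => ψ₁ ξ * h ξ) x t‖ ^ 2 ≤ CB * s * En B s x₀ t₁ h)
    {b₁ b₂ C₀ C₁ : ℝ} {m : ℕ} {g₁ g₂ : ℝ → ℂ} (hb₁ : 0 < b₁) (hb₂ : 0 < b₂)
    (P1 : Proc B b₁ C₀ C₁ m m g₁) (P2 : Proc B b₂ C₀ C₁ m m g₂)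
    (hgi1 : ∀ l k, Good (P1.gi l k)) (hgo1 : ∀ l k, Good (P1.go l k))
    (hgi2 : ∀ l k, Good (P2.gi l k)) (hgo2 : ∀ l k, Good (P2.go l k))
    {lam₁ lam₂ α : ℝ} (hlam₁ : 0 < lam₁) (hlam₂ : 0 < lam₂) (hα : 0 < α)
    (hα1 : 2 * CK / b₁ * (54 * lam₁) ≤ α / 2) (hα2 : 2 * CK / b₂ * (54 * lam₂) ≤ α / 2)
    (hc1 : CC * (54 * lam₁) ≤ (α / 2) ^ 2) (hc2 : CC * (54 * lam₂) ≤ (α / 2) ^ 2)
    (hbt : CB * (54 * lam₁) < (α / 2) ^ 2) (E : Finset (ℝ × ℝ))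
    (hsep : ∀ z ∈ E, ∀ z' ∈ E, z ≠ z' → 1 ≤ |z.1 - z'.1| ∨ 1 ≤ |z.2 - z'.2|)
    (hE : ∀ z ∈ E, 0 ≤ z.2 ∧ z.2 < (4:ℝ) ^ m ∧
      α ≤ ‖sol (fun ξ => ψ₁ ξ * g₁ ξ) z.1 z.2‖ ∧ α ≤ ‖sol (fun ξ => ψ₂ ξ * g₂ ξ) z.1 z.2‖)
    (hX1 : ∀ z ∈ E, ∀ x t : ℝ, |x - z.1| ≤ sc m 0 → |t - z.2| ≤ sc m 0 → 0 ≤ t → t < 4 ^ m →
      XX P1 0 x t ≤ lam₁ / 4)
    (hX2 : ∀ z ∈ E, ∀ x t : ℝ, |x - z.1| ≤ sc m 0 → |t - z.2| ≤ sc m 0 → 0 ≤ t → t < 4 ^ m →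
      XX P2 0 x t ≤ lam₂ / 4) {V₁ V₂ : ℝ}
    (hS1 : ∑ l ∈ Finset.Icc 1 m, ∑ k ∈ Finset.range (4 ^ l),
      (∫ t in (k * (sc m l) ^ 2)..((k + 1) * (sc m l) ^ 2),
        ∫ a, mu (sc m l) a * ‖uh (P1.gi l k) (P1.gi l k) a t‖ ^ 2) ≤ V₁)
    (hS2 : ∑ l ∈ Finset.Icc 1 m, ∑ k ∈ Finset.range (4 ^ l),
      (∫ t in (k * (sc m l) ^ 2)..((k + 1) * (sc m l) ^ 2),
        ∫ a, mu (sc m l) a * ‖uh (P2.gi l k) (P2.gi l k) a t‖ ^ 2) ≤ V₂) :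
    (α / 2) ^ 4 * (E.card : ℝ) ≤ CC * 4 * (54 * lam₁ * (54 * lam₂)) *
      (2 * CM * V₁ / lam₁ ^ 2 + 2 * CM * V₂ / lam₂ ^ 2) := by
  classical
  rcases E.eq_empty_or_nonempty with rfl | hne
  · -- trivial case: the right side is nonnegative
    have hn : ∀ {b : ℝ} {g : ℝ → ℂ} (P : Proc B b C₀ C₁ m m g), 0 ≤
        ∑ l ∈ Finset.Icc 1 m, ∑ k ∈ Finset.range (4 ^ l),
        (∫ t in (k * (sc m l) ^ 2)..((k + 1) * (sc m l) ^ 2),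
          ∫ a, mu (sc m l) a * ‖uh (P.gi l k) (P.gi l k) a t‖ ^ 2) := by
      intro b g P
      apply Finset.sum_nonneg; intro l _
      apply Finset.sum_nonneg; intro k _
      apply intervalIntegral.integral_nonneg
      · have := sc_pos m l
        nlinarith [sq_nonneg (sc m l)]
      · intro t _
        exact integral_nonneg fun a => mul_nonneg (mu_nonneg _ _ (sc_pos m l)) (by positivity)
    have h1 := (hn P1).trans hS1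
    have h2 := (hn P2).trans hS2
    simp only [Finset.card_empty, Nat.cast_zero, mul_zero]
    positivity
  -- stopping rule
  let St : ℕ → ℤ × ℤ → Prop := fun l q =>
    lam₁ * sc m l ^ 2 ≤ avg P1 l q ∨ lam₂ * sc m l ^ 2 ≤ avg P2 l q
  have hsub : ∀ l ≤ m, ∀ z ∈ E, II m l (fl m l z).2 ⊆ Ico 0 (4 ^ m) := by
    intro l hl z hz
    exact II_sub hl (hE z hz).1 (hE z hz).2.1
  have good : ∀ l ≤ m, ∀ z ∈ E, (l = 0 ∨ ¬ St l (fl m l z)) → ∃ t ∈ II m l (fl m l z).2,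
      (∀ x ∈ II m l (fl m l z).1, XX P1 l x t ≤ 54 * lam₁) ∧
      ∀ x ∈ II m l (fl m l z).1, XX P2 l x t ≤ 54 * lam₂ := by
    intro l hl z hz h
    by_cases h0 : l = 0
    · subst h0
      refine ⟨z.2, fl_mem2 _ _ _, ?_, ?_⟩
      · intro x hx
        have := hX1 z hz x z.2 (II_near hx (fl_mem1 _ _ _)) (by simp [(sc_pos m 0).le])
          (hE z hz).1 (hE z hz).2.1
        linarith
      · intro x hx
        have := hX2 z hz x z.2 (II_near hx (fl_mem1 _ _ _)) (by simp [(sc_pos m 0).le])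
          (hE z hz).1 (hE z hz).2.1
        linarith
    · have h' : ¬ St l (fl m l z) := by tauto
      have h'' : ¬ (lam₁ * sc m l ^ 2 ≤ avg P1 l (fl m l z) ∨
        lam₂ * sc m l ^ 2 ≤ avg P2 l (fl m l z)) := h'
      push Not at h''
      exact good_time2 P1 P2 hB hRep hgi1 hgo1 hgi2 hgo2 hl hlam₁ hlam₂ (hsub l hl z hz)
        h''.1 h''.2
  -- every point is stopped
  have hex : ∀ z ∈ E, ∃ l, 1 ≤ l ∧ l ≤ m ∧ St l (fl m l z) := by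
    intro z hz
    by_contra hc
    push Not at hc
    have h1 : m = 0 ∨ ¬ St m (fl m m z) := by
      rcases Nat.eq_zero_or_pos m with h | h
      · exact Or.inl h
      · exact Or.inr (hc m h le_rfl)
    obtain ⟨t₁, ht₁, hg1, -⟩ := good m le_rfl z hz h1
    have ht₁' := hsub m le_rfl z hz ht₁
    have hs1 : sc m m = 1 := sc_top m
    have hnear : |z.2 - t₁| ≤ sc m m := II_near (fl_mem2 m m z) ht₁
    have h2 := lower P1 hB hb₁ le_rfl hRep hgi1 hgo1 hψ₁ hCK hK₁ hα1 le_rfl ht₁'.1 ht₁'.2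
      (hg1 z.1 (fl_mem1 _ _ _)) hnear (hE z hz).2.2.1
    have h3 := hBern (sc m m) (by rw [hs1]) z.1 t₁ z.1 z.2 (by simp [hs1]) (by
      rw [hs1] at hnear ⊢; linarith) _ (hgo1 m (kk m m t₁))
    have h4 := eout_le_XX P1 hB hRep hgi1 hgo1 le_rfl ht₁'.1 ht₁'.2 z.1
    have h5 := hg1 z.1 (fl_mem1 _ _ _)
    unfold eout at h4
    have h6 : (α / 2) ^ 2 ≤ ‖sol (fun ξ => ψ₁ ξ * P1.go m (kk m m t₁) ξ) z.1 z.2‖ ^ 2 :=
      pow_le_pow_left₀ (by positivity) h2 2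
    rw [hs1, mul_one] at h3
    rw [hs1] at h4
    have h7 : CB * En B 1 z.1 t₁ (P1.go m (kk m m t₁)) ≤ CB * (54 * lam₁) :=
      mul_le_mul_of_nonneg_left (h4.trans h5) hCB.le
    linarith
  obtain ⟨z₀, hz₀⟩ := hne
  have hm : 1 ≤ m := by
    obtain ⟨l, h1, h2, -⟩ := hex z₀ hz₀
    omega
  -- the stopping level
  let τ : ℝ × ℝ → ℕ := fun z => sInf {l | 1 ≤ l ∧ l ≤ m ∧ St l (fl m l z)}
  have hτ : ∀ z ∈ E, 1 ≤ τ z ∧ τ z ≤ m ∧ St (τ z) (fl m (τ z) z) := by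
    intro z hz
    exact Nat.sInf_mem (s := {l | 1 ≤ l ∧ l ≤ m ∧ St l (fl m l z)}) (hex z hz)
  have hτmin : ∀ z ∈ E, ∀ l, 1 ≤ l → l < τ z → ¬ St l (fl m l z) := by
    intro z hz l h1 h2 h3
    have h4 := Nat.notMem_of_lt_sInf (s := {l | 1 ≤ l ∧ l ≤ m ∧ St l (fl m l z)}) h2
    exact h4 ⟨h1, (by have := (hτ z hz).2.1; omega), h3⟩
  let PP : ℝ × ℝ → ℕ × ℤ × ℤ := fun z => (τ z, fl m (τ z) z)
  let SS : Finset (ℕ × ℤ × ℤ) := E.image PP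
  have hSS : ∀ p ∈ SS, ∃ z ∈ E, PP z = p := by
    intro p hp
    exact Finset.mem_image.mp hp
  have hdisj : ∀ p ∈ SS, ∀ p' ∈ SS, p ≠ p' → ∀ x t, x ∈ II m p.1 p.2.1 → t ∈ II m p.1 p.2.2 →
      x ∈ II m p'.1 p'.2.1 → t ∈ II m p'.1 p'.2.2 → False := by
    -- wlog on levels
    have aux : ∀ p ∈ SS, ∀ p' ∈ SS, p ≠ p' → p.1 ≤ p'.1 → ∀ x t, x ∈ II m p.1 p.2.1 →
        t ∈ II m p.1 p.2.2 → x ∈ II m p'.1 p'.2.1 → t ∈ II m p'.1 p'.2.2 → False := by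
      intro p hp p' hp' hne' hle x t hx ht hx' ht'
      obtain ⟨z, hz, rfl⟩ := hSS p hp
      obtain ⟨z', hz', rfl⟩ := hSS p' hp'
      have e1 : fl m (τ z) (x, t) = fl m (τ z) z := fl_of_mem hx ht
      have e2 : fl m (τ z') (x, t) = fl m (τ z') z' := fl_of_mem hx' ht'
      have hle' : τ z ≤ τ z' := hle
      have e3 : fl m (τ z) z' = fl m (τ z) z := by rw [← e1]; exact (fl_eq hle' e2).symm
      rcases hle'.lt_or_eq with h | h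
      · apply hτmin z' hz' (τ z) (hτ z hz).1 h
        rw [e3]
        exact (hτ z hz).2.2
      · apply hne'
        show (τ z, fl m (τ z) z) = (τ z', fl m (τ z') z')
        rw [← h, e3]
    intro p hp p' hp' hne' x t hx ht hx' ht'
    rcases le_total p.1 p'.1 with h | h
    · exact aux p hp p' hp' hne' h x t hx ht hx' ht'
    · exact aux p' hp' p hp hne'.symm h x t hx' ht' hx ht
  have hlev : ∀ p ∈ SS, 1 ≤ p.1 ∧ p.1 ≤ m := by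
    intro p hp
    obtain ⟨z, hz, rfl⟩ := hSS p hp
    exact ⟨(hτ z hz).1, (hτ z hz).2.1⟩
  have hsubS : ∀ p ∈ SS, II m p.1 p.2.2 ⊆ Ico 0 (4 ^ m) := by
    intro p hp
    obtain ⟨z, hz, rfl⟩ := hSS p hp
    exact hsub _ (hτ z hz).2.1 z hz
  -- bound of `X_0` on the stopped squares
  have hX0S : ∀ {b : ℝ} {g : ℝ → ℂ} (P : Proc B b C₀ C₁ m m g) (lam : ℝ),
      (∀ z ∈ E, ∀ x t : ℝ, |x - z.1| ≤ sc m 0 → |t - z.2| ≤ sc m 0 → 0 ≤ t → t < 4 ^ m →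
        XX P 0 x t ≤ lam / 4) →
      ∀ p ∈ SS, ∀ t ∈ II m p.1 p.2.2, ∀ x ∈ II m p.1 p.2.1, XX P 0 x t ≤ lam / 4 := by
    intro b g P lam hX p hp t ht x hx
    have ht' := hsubS p hp ht
    obtain ⟨z, hz, rfl⟩ := hSS p hp
    have h1 := sc_anti m (Nat.zero_le (τ z))
    exact hX z hz x t ((II_near hx (fl_mem1 m (τ z) z)).trans h1)
      ((II_near ht (fl_mem2 m (τ z) z)).trans h1) ht'.1 ht'.2
  let SS1 := SS.filter (fun p => lam₁ * sc m p.1 ^ 2 ≤ avg P1 p.1 p.2)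
  let SS2 := SS.filter (fun p => lam₂ * sc m p.1 ^ 2 ≤ avg P2 p.1 p.2)
  have hm1 := max_int P1 hB hRep hgi1 hgo1 hEnF hCM hMax hm hlam₁ SS1
    (fun p hp => hlev p (Finset.mem_filter.mp hp).1)
    (fun p hp => hsubS p (Finset.mem_filter.mp hp).1)
    (fun p hp p' hp' => hdisj p (Finset.mem_filter.mp hp).1 p' (Finset.mem_filter.mp hp').1)
    (fun p hp => (Finset.mem_filter.mp hp).2)
    (fun p hp => hX0S P1 lam₁ hX1 p (Finset.mem_filter.mp hp).1) hS1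
  have hm2 := max_int P2 hB hRep hgi2 hgo2 hEnF hCM hMax hm hlam₂ SS2
    (fun p hp => hlev p (Finset.mem_filter.mp hp).1)
    (fun p hp => hsubS p (Finset.mem_filter.mp hp).1)
    (fun p hp p' hp' => hdisj p (Finset.mem_filter.mp hp).1 p' (Finset.mem_filter.mp hp').1)
    (fun p hp => (Finset.mem_filter.mp hp).2)
    (fun p hp => hX0S P2 lam₂ hX2 p (Finset.mem_filter.mp hp).1) hS2
  have hcov : ∑ p ∈ SS, sc m p.1 ^ 2 ≤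
      2 * CM * V₁ / lam₁ ^ 2 + 2 * CM * V₂ / lam₂ ^ 2 := by
    have h1 : ∑ p ∈ SS, sc m p.1 ^ 2 ≤ ∑ p ∈ SS1, sc m p.1 ^ 2 + ∑ p ∈ SS2, sc m p.1 ^ 2 := by
      rw [Finset.sum_filter, Finset.sum_filter, ← Finset.sum_add_distrib]
      apply Finset.sum_le_sum
      intro p hp
      obtain ⟨z, hz, rfl⟩ := hSS p hp
      have hs2 : 0 ≤ sc m (PP z).1 ^ 2 := by positivity
      rcases (hτ z hz).2.2 with h | h
      · have h' : lam₁ * sc m (PP z).1 ^ 2 ≤ avg P1 (PP z).1 (PP z).2 := h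
        rw [if_pos h']
        split_ifs <;> linarith
      · have h' : lam₂ * sc m (PP z).1 ^ 2 ≤ avg P2 (PP z).1 (PP z).2 := h
        rw [if_pos h']
        split_ifs <;> linarith
    have h2 : ∑ p ∈ SS1, sc m p.1 ^ 2 ≤ 2 * CM * V₁ / lam₁ ^ 2 := by
      rw [le_div_iff₀ (by positivity)]; linarith
    have h3 : ∑ p ∈ SS2, sc m p.1 ^ 2 ≤ 2 * CM * V₂ / lam₂ ^ 2 := by
      rw [le_div_iff₀ (by positivity)]; linarith
    linarith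
  -- the count in one stopped square
  have hone : ∀ p ∈ SS, (α / 2) ^ 4 * ((E.filter (fun z => PP z = p)).card : ℝ) ≤
      CC * 4 * (54 * lam₁ * (54 * lam₂)) * sc m p.1 ^ 2 := by
    intro p hp
    obtain ⟨z₁, hz₁, rfl⟩ := hSS p hp
    obtain ⟨h1, h2, h3⟩ := hτ z₁ hz₁
    have hl1 : τ z₁ - 1 = 0 ∨ ¬ St (τ z₁ - 1) (fl m (τ z₁ - 1) z₁) := by
      by_cases h : τ z₁ - 1 = 0
      · exact Or.inl h
      · exact Or.inr (hτmin z₁ hz₁ _ (by omega) (by omega))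
    obtain ⟨t₁, ht₁, hg1, hg2⟩ := good (τ z₁ - 1) (by omega) z₁ hz₁ hl1
    have ht₁' := hsub (τ z₁ - 1) (by omega) z₁ hz₁ ht₁
    have hsc : sc m (τ z₁ - 1) = 2 * sc m (τ z₁) := by
      have : τ z₁ = (τ z₁ - 1) + 1 := by omega
      conv_rhs => rw [this]
      exact sc_succ m _
    have hs := sc_pos m (τ z₁ - 1)
    have he1 : En B (sc m (τ z₁ - 1)) z₁.1 t₁ (P1.go (τ z₁ - 1) (kk m (τ z₁ - 1) t₁)) ≤
        54 * lam₁ :=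
      (eout_le_XX P1 hB hRep hgi1 hgo1 (by omega) ht₁'.1 ht₁'.2 z₁.1).trans
        (hg1 z₁.1 (fl_mem1 _ _ _))
    have he2 : En B (sc m (τ z₁ - 1)) z₁.1 t₁ (P2.go (τ z₁ - 1) (kk m (τ z₁ - 1) t₁)) ≤
        54 * lam₂ :=
      (eout_le_XX P2 hB hRep hgi2 hgo2 (by omega) ht₁'.1 ht₁'.2 z₁.1).trans
        (hg2 z₁.1 (fl_mem1 _ _ _))
    have hc := hCount (sc m (τ z₁ - 1)) (sc_ge_one (by omega)) z₁.1 t₁ (54 * lam₁) (54 * lam₂)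
      (α / 2) (by positivity) (by positivity) (by positivity) hc1 hc2 _ _
      (hgo1 (τ z₁ - 1) (kk m (τ z₁ - 1) t₁)) (hgo2 (τ z₁ - 1) (kk m (τ z₁ - 1) t₁)) he1 he2
      (E.filter (fun z => PP z = PP z₁))
      (fun z hz z' hz' => hsep z (Finset.mem_filter.mp hz).1 z' (Finset.mem_filter.mp hz').1)
      (by
        intro z hz
        obtain ⟨hzE, hzP⟩ := Finset.mem_filter.mp hz
        have e1 : τ z = τ z₁ := congrArg Prod.fst hzP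
        have e2 : fl m (τ z) z = fl m (τ z₁) z₁ := congrArg Prod.snd hzP
        rw [e1] at e2
        have e3 : fl m (τ z₁ - 1) z = fl m (τ z₁ - 1) z₁ := fl_eq (Nat.sub_le _ _) e2
        have hx : z.1 ∈ II m (τ z₁ - 1) (fl m (τ z₁ - 1) z₁).1 := by
          rw [← e3]; exact fl_mem1 _ _ _
        have ht : z.2 ∈ II m (τ z₁ - 1) (fl m (τ z₁ - 1) z₁).2 := by
          rw [← e3]; exact fl_mem2 _ _ _
        have hn1 := II_near hx (fl_mem1 m (τ z₁ - 1) z₁)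
        have hn2 := II_near ht ht₁
        refine ⟨by linarith, by linarith, ?_, ?_⟩
        · exact lower P1 hB hb₁ le_rfl hRep hgi1 hgo1 hψ₁ hCK hK₁ hα1 (by omega) ht₁'.1 ht₁'.2
            (hg1 z.1 hx) hn2 (hE z hzE).2.2.1
        · exact lower P2 hB hb₂ le_rfl hRep hgi2 hgo2 hψ₂ hCK hK₂ hα2 (by omega) ht₁'.1 ht₁'.2
            (hg2 z.1 hx) hn2 (hE z hzE).2.2.2)
    refine hc.trans (le_of_eq ?_)
    rw [hsc]
    show CC * (2 * sc m (τ z₁)) ^ 2 * (54 * lam₁ * (54 * lam₂)) =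
      CC * 4 * (54 * lam₁ * (54 * lam₂)) * sc m (τ z₁) ^ 2
    ring
  have hcard : (E.card : ℝ) = ∑ p ∈ SS, ((E.filter (fun z => PP z = p)).card : ℝ) := by
    rw [Finset.card_eq_sum_card_image PP E]
    push_cast
    rfl
  rw [hcard, Finset.mul_sum]
  calc ∑ p ∈ SS, (α / 2) ^ 4 * ((E.filter (fun z => PP z = p)).card : ℝ)
      ≤ ∑ p ∈ SS, CC * 4 * (54 * lam₁ * (54 * lam₂)) * sc m p.1 ^ 2 := Finset.sum_le_sum hone
    _ = CC * 4 * (54 * lam₁ * (54 * lam₂)) * ∑ p ∈ SS, sc m p.1 ^ 2 := by rw [← Finset.mul_sum]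
    _ ≤ _ := mul_le_mul_of_nonneg_left hcov (by positivity)

end Vale.Agent.P076.H629
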